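import Crest.Agent.N337.FV.Boot1

/-!
# Row 337, part FV: the bootstrap in the field (helper35)

`t = β^{-1/80}`, `A = t⁻²`, `μ = A/β = t^78`.
-/

set_option autoImplicit false

namespace Crest.Agent.N337.FV

open Crest.MathPhysics.SpinModel Filter Topology Finset Crest.Agent.N337.Free

namespace Bt

theorem pow_small {t c : ℝ} (ht : 0 < t) (ht1 : t ≤ 1) (hc0 : 0 ≤ c) (hc : c * t ≤ 1) {k : ℕ}
    (hk : k ≠ 0) : c * t ^ k ≤ 1 :=
  (mul_le_mul_of_nonneg_left (pow_le_of_le_one ht.le ht1 hk) hc0).trans hc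

theorem exp_small {t C : ℝ} (ht : 0 < t) (hC : 0 ≤ C)
    (h : 2 * C * ((Nat.factorial 58 : ℝ) * 2 ^ 58) * t ≤ 1) :
    2 * (C * Real.exp (-((t ^ 2)⁻¹ / 2))) ≤ t ^ 115 := by
  have h1 := Real.pow_div_factorial_le_exp ((t ^ 2)⁻¹ / 2) (by positivity) 58
  generalize hF : (Nat.factorial 58 : ℝ) = F at h h1
  have hF0 : 0 < F := by rw [← hF]; exact Nat.cast_pos.2 (Nat.factorial_pos _)
  have h2 : Real.exp (-((t ^ 2)⁻¹ / 2)) ≤ F * 2 ^ 58 * t * t ^ 115 := by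
    rw [Real.exp_neg]
    refine (inv_anti₀ (by positivity) h1).trans (le_of_eq ?_)
    field_simp
  calc 2 * (C * Real.exp (-((t ^ 2)⁻¹ / 2))) ≤ 2 * (C * (F * 2 ^ 58 * t * t ^ 115)) := by gcongr
    _ = 2 * C * (F * 2 ^ 58) * t * t ^ 115 := by ring
    _ ≤ 1 * t ^ 115 := by gcongr
    _ = _ := one_mul _

theorem arith {Q N X Y r e t nn CH CF K K' K0 : ℝ} (ht : 0 < t) (ht1 : t ≤ 1) (hN : 0 ≤ N)
    (hnn : 0 ≤ nn) (hCH : 0 ≤ CH) (hCF : 0 ≤ CF) (hK' : 0 ≤ K') (hK : K' ≤ K) (hr0 : 0 ≤ r)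
    (hr : r ≤ K0 * t ^ 115) (he : 2 * (CH * e) ≤ t ^ 115)
    (hs : 2 * CH * K0 ^ 2 * (CF * (2 + K)) * t ≤ 1)
    (hX : X ≤ N * (CF * t ^ 39 + CF * K' + CF * t ^ 39)) (hY : Y ≤ N * (CF + CF * K' + CF))
    (hQ : Q ≤ 2 * (216 * nn * t ^ 76 * X + CH * r ^ 2 * Y + CH * e * N)) :
    Q ≤ N * (432 * nn * CF * t ^ 76 * (2 * t ^ 39 + K') + 2 * t ^ 115) := by
  have h1 : 216 * nn * t ^ 76 * X ≤
      216 * nn * t ^ 76 * (N * (CF * t ^ 39 + CF * K' + CF * t ^ 39)) := by gcongr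
  have h2 : CH * r ^ 2 * Y ≤ CH * (K0 * t ^ 115) ^ 2 * (N * (CF * (2 + K))) :=
    calc _ ≤ CH * r ^ 2 * (N * (CF + CF * K' + CF)) := by gcongr
      _ = CH * r ^ 2 * (N * (CF * (2 + K'))) := by ring
      _ ≤ _ := by gcongr
  have h3 := pow_small ht ht1 (by have : 0 ≤ K := hK'.trans hK; positivity) hs
    (show 115 ≠ 0 by norm_num)
  have h4 := mul_le_mul_of_nonneg_right h3 (show 0 ≤ N * t ^ 115 by positivity)
  have h5 := mul_le_mul_of_nonneg_right he hN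
  nlinarith

end Bt

set_option maxHeartbeats 800000 in
open Bt in
theorem boot (hM : ModeStmt) (hH : HighStmt) (hK : KVGStmt) : BootStmt := by
  intro d n J hd hn hJ
  have hn1 : (1 : ℝ) ≤ n := by exact_mod_cast hn
  have hn0 : (0 : ℝ) ≤ n := Nat.cast_nonneg _
  obtain ⟨L1, hM⟩ := hM d n J hd hn hJ
  obtain ⟨CH, L2, hCH, hH⟩ := hH d n J hd hn hJ
  obtain ⟨K, CK, η, L3, hK1, hCK, hη, hK⟩ := hK d n J hd hn hJ
  obtain ⟨CF, L4, hCF, hF⟩ := free d n J hd hn hJ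
  have hCH0 : 0 ≤ CH := zero_le_one.trans hCH
  have hCK0 : 0 ≤ CK := zero_le_one.trans hCK
  have hCF0 : 0 ≤ CF := zero_le_one.trans hCF
  have hKp : 0 ≤ K := zero_le_one.trans hK1
  have hc0 : 0 ≤ 432 * n * CF := mul_nonneg (mul_nonneg (by norm_num) hn0) hCF0
  obtain ⟨K0, hK0⟩ : ∃ K0 : ℝ, K0 = 432 * n * CF * (2 + K) + 3 := ⟨_, rfl⟩
  have hK03 : 3 ≤ K0 := by
    rw [hK0]; exact le_add_of_nonneg_left (mul_nonneg hc0 (by linarith only [hKp]))
  have hK0p : 0 < K0 := by linarith only [hK03]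
  have hsm : ∀ c : ℝ, ∀ᶠ β : ℝ in atTop, c * β ^ (-(1 / 80 : ℝ)) ≤ 1 := fun c => by
    have := (tendsto_rpow_neg_atTop (y := 1 / 80) (by norm_num)).const_mul c
    rw [mul_zero] at this
    exact this.eventually (eventually_le_nhds one_pos)
  obtain ⟨β1, hβ1⟩ := eventually_atTop.1 ((hsm 1).and ((hsm (K0 / η)).and ((hsm (8 * K0)).and
    ((hsm (CK * (K0 + K0 ^ 2))).and ((hsm (2 * CH * K0 ^ 2)).and
    ((hsm (2 * CH * K0 ^ 2 * (CF * (2 + K)))).and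
    (hsm (2 * CH * ((Nat.factorial 58 : ℝ) * 2 ^ 58)))))))))
  have hK1' : K0 ≤ CK * (K0 + K0 ^ 2) := by
    nlinarith only [hK0p, hCK, sq_nonneg K0, mul_nonneg hCK0 (sq_nonneg K0)]
  refine ⟨CK * (K0 + K0 ^ 2), max β1 2, by linarith only [hK1', hK03],
    lt_max_of_lt_right one_lt_two, fun β hβ h hh => ?_⟩
  have hβ0 : 0 < β := by linarith only [hβ, le_max_right β1 2]
  obtain ⟨s1, s2, s3, s4, s5, s6, s7⟩ := hβ1 β ((le_max_left _ _).trans hβ)
  clear hβ1 hsm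
  have e115 : β ^ (-(23 / 16 : ℝ)) = (β ^ (-(1 / 80 : ℝ))) ^ 115 := by
    rw [← Real.rpow_natCast, ← Real.rpow_mul hβ0.le]; norm_num
  have e80 : β = ((β ^ (-(1 / 80 : ℝ))) ^ 80)⁻¹ := by
    rw [← Real.rpow_natCast, ← Real.rpow_mul hβ0.le, ← Real.rpow_neg hβ0.le]; norm_num
  rw [e115]
  have ht : 0 < β ^ (-(1 / 80 : ℝ)) := Real.rpow_pos_of_pos hβ0 _
  clear e115
  generalize β ^ (-(1 / 80 : ℝ)) = t at *
  rw [one_mul] at s1
  have p39 : 0 < t ^ 39 := pow_pos ht _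
  have p76 : 0 < t ^ 76 := pow_pos ht _
  have p78 : 0 < t ^ 78 := pow_pos ht _
  have p115 : 0 < t ^ 115 := pow_pos ht _
  have hA : 1 ≤ (t ^ 2)⁻¹ := (one_le_inv₀ (pow_pos ht _)).2 (pow_le_one₀ ht.le s1)
  have eμ : (t ^ 2)⁻¹ / β = t ^ 78 := by rw [e80]; field_simp
  have eA : ((t ^ 2)⁻¹) ^ 2 / β = t ^ 76 := by rw [e80]; field_simp
  have esq : Real.sqrt (t ^ 78) = t ^ 39 := by
    rw [show t ^ 78 = (t ^ 39) ^ 2 by ring, Real.sqrt_sq p39.le]
  clear e80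
  have t1 : t ^ 115 ≤ t ^ 76 := pow_le_pow_of_le_one ht.le s1 (by norm_num)
  have t2 : t ^ 39 ≤ 1 := pow_le_one₀ ht.le s1
  have t3 : t ^ 152 ≤ t ^ 115 := pow_le_pow_of_le_one ht.le s1 (by norm_num)
  have a1 : K0 * t ^ 76 ≤ η := by
    have := pow_small ht s1 (div_pos hK0p hη).le s2 (show 76 ≠ 0 by norm_num)
    rwa [div_mul_eq_mul_div, div_le_one hη] at this
  have a01 : K0 * t ^ 115 ≤ K0 * t ^ 76 := mul_le_mul_of_nonneg_left t1 hK0p.le
  have a2 : K0 * t ^ 115 ≤ 1 / 8 := by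
    linarith only [pow_small ht s1 (by linarith only [hK0p]) s3 (show 115 ≠ 0 by norm_num)]
  have a3 : CK * (K0 * t ^ 115 + (K0 * t ^ 76) ^ 2) ≤ CK * (K0 + K0 ^ 2) * t ^ 115 := by
    linarith only [mul_le_mul_of_nonneg_left t3 (mul_nonneg hCK0 (sq_nonneg K0))]
  have a4 := pow_small ht s1 (hK0p.le.trans hK1') s4 (show 115 ≠ 0 by norm_num)
  have a5 := pow_small ht s1 (mul_nonneg (mul_nonneg zero_le_two hCH0) (sq_nonneg K0)) s5
    (show 152 ≠ 0 by norm_num)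
  have a6 := exp_small ht hCH0 s7
  clear s2 s3 s4 s5 s7
  have hδ : 0 < min (t ^ 39 * h) (t ^ 78) := lt_min (mul_pos p39 hh) p78
  refine ⟨max (max L1 L2) (max (max L3 L4) ⌈(min (t ^ 39 * h) (t ^ 78))⁻¹⌉₊), fun L _ hL => ?_⟩
  simp only [max_le_iff] at hL
  obtain ⟨⟨hL1, hL2⟩, ⟨hL3, hL4⟩, hL5⟩ := hL
  have hV : (0 : ℝ) < (L : ℝ) ^ d := vol_pos
  have hL1' : (1 : ℝ) ≤ L := by exact_mod_cast NeZero.one_le
  have hL0 : (0 : ℝ) ≤ L := Nat.cast_nonneg _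
  have hLV : (L : ℝ) ≤ min (t ^ 39 * h) (t ^ 78) * (L : ℝ) ^ d := by
    have h1 : (min (t ^ 39 * h) (t ^ 78))⁻¹ ≤ L := Nat.ceil_le.1 hL5
    rw [inv_le_iff_one_le_mul₀ hδ] at h1
    have h2 : (L : ℝ) ^ 2 ≤ (L : ℝ) ^ d := pow_le_pow_right₀ hL1' (by omega)
    linarith only [mul_le_mul_of_nonneg_left h2 hδ.le, mul_le_mul_of_nonneg_left h1 hL0]
  obtain ⟨-, hε, -, hF⟩ := hF L hL4
  obtain ⟨hG0, hG1, hG2⟩ := hF (t ^ 78) p78
  have hgf : ∀ (x : ℝ) (a : Tor d L → ℝ), 0 < x → 0 ≤ gform n J x a := fun x a hx =>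
    div_nonneg (Finset.sum_nonneg fun k _ =>
      div_nonneg (hat2_nonneg a k) (add_nonneg (hε k) hx.le)) hV.le
  -- the infrared bound under the bootstrap hypothesis
  have hIR : ∀ x, h ≤ x → rS n J L β x ≤ K0 * t ^ 115 →
      (∀ B : Finset (Tor d L), Sparse K B → B.card ≤ L →
        Qf n (torJ J L) β x (ind B) ≤ K0 * t ^ 76 * B.card) →
      ∀ a : Tor d L → ℝ, (∀ y, 0 ≤ a y) →
        Df n (torJ J L) β x a ≤ (1 + CK * (K0 + K0 ^ 2) * t ^ 115) * n * gform n J x a := by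
    intro x hx h1 h2 a ha
    exact (hK L hL3 β x _ _ hβ0 (hh.trans_le hx) (mul_pos hK0p p115).le (a01.trans a1)
      (mul_pos hK0p p76).le a1 h1 h2 a ha).trans (mul_le_mul_of_nonneg_right
        (mul_le_mul_of_nonneg_right (by linarith only [a3]) hn0) (hgf x a (hh.trans_le hx)))
  -- the improved bounds
  have himp : ∀ x, h ≤ x → rS n J L β x ≤ K0 * t ^ 115 →
      (∀ B : Finset (Tor d L), Sparse K B → B.card ≤ L →
        Qf n (torJ J L) β x (ind B) ≤ K0 * t ^ 76 * B.card) →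
      ∀ (K' : ℝ) (B : Finset (Tor d L)), 0 ≤ K' → K' ≤ K → Sparse K' B → B.card ≤ L →
        Qf n (torJ J L) β x (ind B) ≤
          B.card * (432 * n * CF * t ^ 76 * (2 * t ^ 39 + K') + 2 * t ^ 115) := by
    intro x hx h1 h2 K' B hK'0 hK' hB hc
    have hx0 : 0 < x := hh.trans_le hx
    obtain ⟨-, -, -, ⟨r1, r2, -⟩, m1, m2⟩ := hM L hL1 β x hβ0
    have hc' : (B.card : ℝ) ≤ L := by exact_mod_cast hc
    have hQ := Q_le (C := CH) hJ hβ0 hx0 hA
      (fun k hk => uk_low hβ0 hA hx0 k (hε k) hk (h1.trans a2)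
        (by rw [(m1 k).2.1]; linarith only [hn1, r2, h1, a2]) (m1 k).2.2)
      (fun a => (m2 a).2.1) (fun a => (m2 a).2.2.1)
      (fun a f hf => ⟨((m2 a).2.2.2.2 f hf).1, ((m2 a).2.2.2.2 f hf).2.1⟩)
      (by rw [eμ]; exact hG0)
      (fun a ha => (hIR x hx h1 h2 a ha).trans (mul_le_mul_of_nonneg_right
        (mul_le_mul_of_nonneg_right (by linarith only [a4]) hn0) (hgf x a hx0)))
      (by
        rw [eμ, div_le_iff₀ p78]
        have h3 : rS n J L β x ^ 2 ≤ (K0 * t ^ 115) ^ 2 := pow_le_pow_left₀ (r1.trans r2) h1 2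
        linarith only [mul_le_mul_of_nonneg_left h3 hCH0, mul_le_mul_of_nonneg_right a5 p78.le])
      (ind B) (ind_nonneg B) (hH L hL2 β x _ hβ0 hx0 hA _ (ind_nonneg B))
    rw [eμ, eA, sum_ind_sq] at hQ
    refine arith ht s1 (Nat.cast_nonneg _) hn0 hCH0 hCF0 hK'0 hK'
      (r1.trans r2) h1 a6 s6 ?_ ?_ hQ
    · refine pair_le (ker_neg _) hCF0 (c := CF / (x * (L : ℝ) ^ d))
        ((hG2 x hx0 0).trans (by rw [esq]; exact add_le_add (min_le_left _ _) le_rfl))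
        (fun y => (hG2 x hx0 y).trans (add_le_add (min_le_right _ _) le_rfl)) hB ?_
      rw [mul_div_assoc', div_le_iff₀ (mul_pos hx0 hV)]
      have h3 : (B.card : ℝ) ≤ t ^ 39 * x * (L : ℝ) ^ d :=
        hc'.trans (hLV.trans (mul_le_mul_of_nonneg_right ((min_le_left _ _).trans
          (mul_le_mul_of_nonneg_left hx p39.le)) hV.le))
      linarith only [mul_le_mul_of_nonneg_left h3 hCF0]
    · refine pair_le (ker_neg _) hCF0 (c := CF / (t ^ 78 * (L : ℝ) ^ d))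
        ((hG1 0).trans (by rw [tdist_self, Nat.cast_zero, max_eq_left zero_le_one, div_one]))
        hG1 hB ?_
      rw [mul_div_assoc', div_le_iff₀ (mul_pos p78 hV)]
      have h3 : (B.card : ℝ) ≤ t ^ 78 * (L : ℝ) ^ d :=
        hc'.trans (hLV.trans (mul_le_mul_of_nonneg_right (min_le_right _ _) hV.le))
      linarith only [mul_le_mul_of_nonneg_left h3 hCF0]
  -- large field
  obtain ⟨H, hH1, hH2⟩ : ∃ H, h ≤ H ∧ L * rS n J L β H ≤ K0 * t ^ 115 := by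
    obtain ⟨C, hC, hC'⟩ := ev_num_le_exp (n := n) (torJ J L) hβ0.le
    have h1 : Tendsto (fun H : ℝ => L * (n * (C * Real.exp (-(β * H))))) atTop (𝓝 0) := by
      have := (((Real.tendsto_exp_neg_atTop_nhds_zero.comp
        (tendsto_id.const_mul_atTop hβ0)).const_mul C).const_mul (n : ℝ)).const_mul (L : ℝ)
      simpa using this
    obtain ⟨H, h2, h3⟩ := ((eventually_ge_atTop h).and
      (h1.eventually (eventually_le_nhds (mul_pos hK0p p115)))).exists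
    refine ⟨H, h2, le_trans ?_ h3⟩
    obtain ⟨-, -, -, ⟨-, -, r3⟩, -⟩ := hM L hL1 β H hβ0
    exact mul_le_mul_of_nonneg_left (r3.trans (mul_le_mul_of_nonneg_left
      (hC' H (hh.le.trans h2) 0) hn0)) hL0
  have toP : ∀ x, (∀ B : {B : Finset (Tor d L) // Sparse K B ∧ B.card ≤ L ∧ B.Nonempty},
      Qf n (torJ J L) β x (ind B.1) ≤ K0 * t ^ 76 * B.1.card) →
      ∀ B : Finset (Tor d L), Sparse K B → B.card ≤ L →
        Qf n (torJ J L) β x (ind B) ≤ K0 * t ^ 76 * B.card := by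
    intro x hx B h1 h2
    rcases B.eq_empty_or_nonempty with rfl | h3
    · simp [Qf, SpF, ind, ev_zero]
    · exact hx ⟨B, h1, h2, h3⟩
  have key := boot_abs
    (ι := Option {B : Finset (Tor d L) // Sparse K B ∧ B.card ≤ L ∧ B.Nonempty})
    (fun i x => i.elim (rS n J L β x) fun B => Qf n (torJ J L) β x (ind B.1))
    (fun i => i.elim (K0 * t ^ 115) fun B => K0 * t ^ 76 * B.1.card)
    (by rintro (_ | B) <;> exact continuous_ev _ _ _) hH1 ?_ ?_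
  · have h1 : rS n J L β h ≤ K0 * t ^ 115 := key none
    exact ⟨h1.trans (mul_le_mul_of_nonneg_right hK1' p115.le),
      hIR h le_rfl h1 (toP h fun B => key (some B))⟩
  · obtain ⟨-, -, -, ⟨r1, r2, -⟩, -, m2⟩ := hM L hL1 β H hβ0
    have r0 := r1.trans r2
    rintro (_ | ⟨B, hB, hc, hne⟩)
    · exact le_trans (le_mul_of_one_le_left r0 hL1') hH2
    · have hc' : (B.card : ℝ) ≤ L := by exact_mod_cast hc
      have h1 : Qf n (torJ J L) β H (ind B) ≤ (B.card : ℝ) ^ 2 * rS n J L β H := by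
        rw [← Qf_ind_zero, (m2 _).2.1, (m2 _).2.1, mul_div_assoc', Finset.mul_sum]
        refine div_le_div_of_nonneg_right (Finset.sum_le_sum fun k _ => ?_) hV.le
        rw [hat2_ind_zero, one_mul]
        exact mul_le_mul_of_nonneg_right (hat2_ind_le B k) (uk_nonneg _ _ _)
      show Qf n (torJ J L) β H (ind B) ≤ K0 * t ^ 76 * B.card
      exact h1.trans (le_trans (le_of_eq (by ring)) (mul_le_mul_of_nonneg_right
        ((mul_le_mul_of_nonneg_right hc' r0).trans (hH2.trans a01)) (Nat.cast_nonneg _)))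
  · intro x hx hP
    have h1 := himp x hx (hP none) (toP x fun B => hP (some B))
    rintro (_ | ⟨B, hB, hc, hne⟩)
    · have h2 := h1 0 {0} le_rfl hKp (by simp [Sparse]) (by simpa using NeZero.one_le)
      rw [Qf_ind_zero, Finset.card_singleton, Nat.cast_one] at h2
      show rS n J L β x < K0 * t ^ 115
      rw [hK0]
      linarith only [h2, p115, mul_nonneg (mul_nonneg hc0 hKp) p115.le]
    · have h2 := h1 K B hKp le_rfl hB hc
      show Qf n (torJ J L) β x (ind B) < K0 * t ^ 76 * B.card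
      have h3 : (0 : ℝ) < B.card := Nat.cast_pos.2 hne.card_pos
      refine h2.trans_lt ?_
      rw [mul_comm]
      refine mul_lt_mul_of_pos_right ?_ h3
      rw [hK0]
      linarith only [p76, t1, mul_le_mul_of_nonneg_left t2 (mul_nonneg hc0 p76.le)]

end Crest.Agent.N337.FV
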