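import Crest.Agent.N337.Defs

/-!
# Row 337, part FV: modes on the torus and the leaf statements (helper80, frozen)

`Bk k = V^{-1/2} ∑ₓ χ_k(x) S⁺ₓ`; `uk = ⟨B* B⟩`, `vk = ⟨B B*⟩`, `m0k` Duhamel, `m2k` double
commutator, exactly as in `MomStmt` with `H = hamF n (torJ J L) h`.
Graph: `FinVolStmt ⇐ Mode + High + Boot + Newton + Mom + Free`,
`Boot ⇐ Mode + High + KVG + Mom + Free`, `High ⇐ Mode + Newton + Mom + Free`,
`KVG ⇐ Mode + KV + Geo + Free`, `Mode ⇐ Free`.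
-/

set_option autoImplicit false

namespace Crest.Agent.N337.FV

open Crest.MathPhysics.SpinModel Filter Topology

section defs
variable {d L : ℕ} [NeZero L]

/-- the mode operator. -/
noncomputable def Bk (n : ℕ) (k : Tor d L) : Op (Tor d L) n :=
  (((Real.sqrt ((L : ℝ) ^ d))⁻¹ : ℝ) : ℂ) • ∑ x : Tor d L, chi k x • Sp n x

noncomputable def uk (n : ℕ) (J : (Fin d → ℤ) → ℝ) (β h : ℝ) (k : Tor d L) : ℝ :=
  ev n (torJ J L) β h ((Bk n k).conjTranspose * Bk n k)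
noncomputable def vk (n : ℕ) (J : (Fin d → ℤ) → ℝ) (β h : ℝ) (k : Tor d L) : ℝ :=
  ev n (torJ J L) β h (Bk n k * (Bk n k).conjTranspose)
noncomputable def m0k (n : ℕ) (J : (Fin d → ℤ) → ℝ) (β h : ℝ) (k : Tor d L) : ℝ :=
  duh n (torJ J L) β h (Bk n k) (Bk n k).conjTranspose
/-- `[B_k, H]`. -/
noncomputable def Ck (n : ℕ) (J : (Fin d → ℤ) → ℝ) (h : ℝ) (k : Tor d L) : Op (Tor d L) n :=
  Bk n k * hamF n (torJ J L) h - hamF n (torJ J L) h * Bk n k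
noncomputable def m2k (n : ℕ) (J : (Fin d → ℤ) → ℝ) (β h : ℝ) (k : Tor d L) : ℝ :=
  ev n (torJ J L) β h (Ck n J h k * (Bk n k).conjTranspose - (Bk n k).conjTranspose * Ck n J h k)
/-- the interaction part `V^{-1/2} ∑_{x,y} J(x,y) (χ_k x - χ_k y) nₓ S⁺_y` of `[B_k, H]`. -/
noncomputable def Jk (n : ℕ) (J : (Fin d → ℤ) → ℝ) (k : Tor d L) : Op (Tor d L) n :=
  (((Real.sqrt ((L : ℝ) ^ d))⁻¹ : ℝ) : ℂ) • ∑ x : Tor d L, ∑ y : Tor d L,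
    (((torJ J L x y : ℝ) : ℂ) * (chi k x - chi k y)) • (num n x * Sp n y)
/-- `|â(k)|²`. -/
noncomputable def hat2 (a : Tor d L → ℝ) (k : Tor d L) : ℝ :=
  ‖∑ x : Tor d L, ((a x : ℝ) : ℂ) * chi k x‖ ^ 2
/-- `⟨a, (ε + μ)⁻¹ a⟩`. -/
noncomputable def gform (n : ℕ) (J : (Fin d → ℤ) → ℝ) (μ : ℝ) (a : Tor d L → ℝ) : ℝ :=
  (∑ k : Tor d L, hat2 a k / (epsT n J k + μ)) / (L : ℝ) ^ d
/-- magnon density. -/
noncomputable def rho (n : ℕ) (J : (Fin d → ℤ) → ℝ) (L : ℕ) [NeZero L] (β h : ℝ) : ℝ :=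
  ev n (torJ J L) β h (num n (0 : Tor d L))
/-- `⟨S⁻₀ S⁺₀⟩`. -/
noncomputable def rS (n : ℕ) (J : (Fin d → ℤ) → ℝ) (L : ℕ) [NeZero L] (β h : ℝ) : ℝ :=
  ev n (torJ J L) β h (Sm n (0 : Tor d L) * Sp n 0)
/-- spread-out sets. -/
def Sparse (K : ℝ) (B : Finset (Tor d L)) : Prop :=
  ∀ x ∈ B, ∑ y ∈ B.erase x, 1 / (tdist x y : ℝ) ≤ K

end defs

/-- **(Mode)** translation invariance, mode identities, Parseval forms, shift bounds. -/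
def ModeStmt : Prop :=
  ∀ (d n : ℕ) (J : (Fin d → ℤ) → ℝ), 3 ≤ d → 1 ≤ n → Coup J → ∃ L0 : ℕ,
    ∀ (L : ℕ) [NeZero L], L0 ≤ L → ∀ β h : ℝ, 0 < β →
      (∀ x : Tor d L, ev n (torJ J L) β h (num n x) = rho n J L β h) ∧
      (∀ x y w : Tor d L, ev n (torJ J L) β h (Sm n (x + w) * Sp n (y + w)) =
        ev n (torJ J L) β h (Sm n x * Sp n y)) ∧
      (∀ x y z t w : Tor d L,
        ev n (torJ J L) β h (Sm n (x + w) * num n (y + w) * (num n (z + w) * Sp n (t + w))) =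
        ev n (torJ J L) β h (Sm n x * num n y * (num n z * Sp n t))) ∧
      (0 ≤ rho n J L β h ∧ rho n J L β h ≤ rS n J L β h ∧
        rS n J L β h ≤ n * rho n J L β h) ∧
      (∀ k : Tor d L,
        Ck n J h k = ((epsT n J k + h : ℝ) : ℂ) • Bk n k + Jk n J k ∧
        vk n J β h k - uk n J β h k = n - 2 * rho n J L β h ∧
        |m2k n J β h k - (epsT n J k + h) * (vk n J β h k - uk n J β h k)| ≤
          4 * rS n J L β h * epsT n J k) ∧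
      (∀ a : Tor d L → ℝ,
        (∑ k : Tor d L, hat2 a k) / (L : ℝ) ^ d = ∑ x, a x ^ 2 ∧
        Qf n (torJ J L) β h a = (∑ k : Tor d L, hat2 a k * uk n J β h k) / (L : ℝ) ^ d ∧
        Df n (torJ J L) β h a = (∑ k : Tor d L, hat2 a k * m0k n J β h k) / (L : ℝ) ^ d ∧
        (∀ w : Tor d L, ∑ x, a x * duh n (torJ J L) β h (SpF n a) (Sm n (x + w)) ≤
          Df n (torJ J L) β h a) ∧
        ∀ f : Tor d L → ℝ, (∀ k, f (-k) = f k) →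
          (∀ k, hat2 (fun x => ∑ y, ker f (x - y) * a y) k = f k ^ 2 * hat2 a k) ∧
          (∑ k : Tor d L, f k * hat2 a k) / (L : ℝ) ^ d = ∑ x, ∑ y, a x * ker f (x - y) * a y ∧
          ((∀ k, 0 ≤ f k) → ∀ (M : ℝ) (w : Tor d L), (∀ k, f k ≤ M) →
            ∑ x, ∑ y, ∑ s, a x * a y * ker f s *
              ev n (torJ J L) β h (Sm n (x + s + w) * Sp n y) ≤ M * Qf n (torJ J L) β h a))

/-- **(High)** the modes with `β (ε_k + h) ≥ A`. -/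
def HighStmt : Prop :=
  ∀ (d n : ℕ) (J : (Fin d → ℤ) → ℝ), 3 ≤ d → 1 ≤ n → Coup J → ∃ (C : ℝ) (L0 : ℕ), 1 ≤ C ∧
    ∀ (L : ℕ) [NeZero L], L0 ≤ L → ∀ β h A : ℝ, 0 < β → 0 < h → 1 ≤ A →
      ∀ a : Tor d L → ℝ, (∀ x, 0 ≤ a x) →
        (∑ k ∈ Finset.univ.filter (fun k : Tor d L => A ≤ β * (epsT n J k + h)),
            hat2 a k * uk n J β h k) / (L : ℝ) ^ d ≤
          C * rS n J L β h ^ 2 * (gform n J (A / β) a + Qf n (torJ J L) β h a / (A / β)) +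
            C * Real.exp (-(A / 2)) * ∑ x, a x ^ 2

/-- **(KVG)** the infrared bound under a smallness hypothesis on spread-out sets. -/
def KVGStmt : Prop :=
  ∀ (d n : ℕ) (J : (Fin d → ℤ) → ℝ), 3 ≤ d → 1 ≤ n → Coup J →
    ∃ (K C η : ℝ) (L0 : ℕ), 1 ≤ K ∧ 1 ≤ C ∧ 0 < η ∧
    ∀ (L : ℕ) [NeZero L], L0 ≤ L → ∀ β h η0 η1 : ℝ, 0 < β → 0 < h →
      0 ≤ η0 → η0 ≤ η → 0 ≤ η1 → η1 ≤ η → rS n J L β h ≤ η0 →
      (∀ B : Finset (Tor d L), Sparse K B → B.card ≤ L →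
        Qf n (torJ J L) β h (ind B) ≤ η1 * B.card) →
      ∀ a : Tor d L → ℝ, (∀ x, 0 ≤ a x) →
        Df n (torJ J L) β h a ≤ (1 + C * (η0 + η1 ^ 2)) * n * gform n J h a

/-- **(Boot)** the a priori bounds, by a bootstrap in the field. -/
def BootStmt : Prop :=
  ∀ (d n : ℕ) (J : (Fin d → ℤ) → ℝ), 3 ≤ d → 1 ≤ n → Coup J → ∃ K0 β0 : ℝ, 1 ≤ K0 ∧ 1 < β0 ∧
    ∀ β : ℝ, β0 ≤ β → ∀ h : ℝ, 0 < h → ∃ L0 : ℕ, ∀ (L : ℕ) [NeZero L], L0 ≤ L →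
      rS n J L β h ≤ K0 * β ^ (-(23 / 16 : ℝ)) ∧
      ∀ a : Tor d L → ℝ, (∀ x, 0 ≤ a x) →
        Df n (torJ J L) β h a ≤ (1 + K0 * β ^ (-(23 / 16 : ℝ))) * n * gform n J h a

end Crest.Agent.N337.FV
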