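import Crest.Agent.N337.FV.High1
import Crest.Agent.N337.FV.Defs
import Crest.Agent.N337.Free.Main

/-!
# Row 337, FV-High: the modes with `β (ε_k + h) ≥ A`
-/

set_option autoImplicit false

namespace Crest.Agent.N337.FV.Hi

open Crest.MathPhysics.SpinModel Filter Topology Matrix Free
open scoped ComplexConjugate

variable {d L : ℕ} [NeZero L] {n : ℕ} {J : (Fin d → ℤ) → ℝ} {β h : ℝ}

/-- the bond mode `V^{-1/2} ∑ₓ χ_k(x) nₓ S⁺_{x+w}`. -/
noncomputable def Yk (n : ℕ) (k w : Tor d L) : Op (Tor d L) n :=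
  (((Real.sqrt ((L : ℝ) ^ d))⁻¹ : ℝ) : ℂ) • ∑ x : Tor d L, chi k x • (num n x * Sp n (x + w))

theorem Jk_eq (k : Tor d L) :
    Jk n J k = ∑ w, (((torJ J L 0 w : ℝ) : ℂ) * (1 - chi k w)) • Yk n k w := by
  unfold Jk Yk
  simp only [smul_comm _ (((Real.sqrt ((L : ℝ) ^ d))⁻¹ : ℝ) : ℂ), ← Finset.smul_sum]
  congr 1
  simp only [Finset.smul_sum, smul_smul]
  rw [Finset.sum_comm (s := Finset.univ) (t := Finset.univ)
    (f := fun w x => (((torJ J L 0 w : ℝ) : ℂ) * (1 - chi k w) * chi k x) •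
      (num n x * Sp n (x + w)))]
  refine Finset.sum_congr rfl fun x _ => ?_
  rw [← Equiv.sum_comp (Equiv.addLeft x)]
  refine Finset.sum_congr rfl fun w _ => ?_
  have : torJ J L x (x + w) = torJ J L 0 w := by
    rw [← torJ_add (J := J) 0 w x, zero_add, add_comm w x]
  simp only [Equiv.coe_addLeft, this, chi_add]
  congr 1; ring

/-- the four-point correlation. -/
noncomputable def corr (n : ℕ) (J : (Fin d → ℤ) → ℝ) (β h : ℝ) (w u : Tor d L) : ℝ :=
  ev n (torJ J L) β h (Sm n (u + w) * num n u * (num n 0 * Sp n w))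

theorem conj_chi_mul (k y : Tor d L) : conj (chi k y) * chi k y = 1 := by
  rw [← chi_neg, ← chi_add, neg_add_cancel, chi_zero]

theorem ev_Yk (hF : Ferro (torJ J L)) (hβ : 0 < β)
    (htr : ∀ x y z t w : Tor d L,
      ev n (torJ J L) β h (Sm n (x + w) * num n (y + w) * (num n (z + w) * Sp n (t + w))) =
      ev n (torJ J L) β h (Sm n x * num n y * (num n z * Sp n t))) (k w : Tor d L) :
    ev n (torJ J L) β h ((Yk n k w)ᴴ * Yk n k w) = ∑ u, (chi k u).re * corr n J β h w u := by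
  have hV : (0 : ℝ) < (L : ℝ) ^ d := vol_pos
  unfold Yk
  rw [ev_csmul_star, Matrix.conjTranspose_sum, Finset.sum_mul_sum, ev_sum]
  simp only [ev_sum]
  rw [Finset.sum_comm]
  have key : ∀ y : Tor d L, ∑ x : Tor d L, ev n (torJ J L) β h
      ((chi k x • (num n x * Sp n (x + w)))ᴴ * (chi k y • (num n y * Sp n (y + w)))) =
      ∑ u, (chi k u).re * corr n J β h w u := by
    intro y
    rw [← Equiv.sum_comp (Equiv.addRight y)]
    refine Finset.sum_congr rfl fun u _ => ?_
    simp only [Equiv.coe_addRight]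
    rw [Matrix.conjTranspose_smul, Matrix.smul_mul, Matrix.mul_smul, smul_smul,
      Matrix.conjTranspose_mul, Sp_conjTranspose, num_conjTranspose,
      ev_csmul hF hβ.le (((pos_Sm _).mul (pos_num _)).mul ((pos_num _).mul (pos_Sp _)))]
    rw [Complex.star_def, chi_add, map_mul, mul_assoc (conj (chi k u)), conj_chi_mul, mul_one,
      Complex.conj_re, corr, ← htr (u + w) u 0 w y, zero_add, add_right_comm u w y, add_comm w y]
  simp only [key, Finset.sum_const, Finset.card_univ, card_Tor, nsmul_eq_mul]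
  rw [Complex.norm_real, Real.norm_eq_abs, sq_abs, inv_pow, Real.sq_sqrt hV.le, ← mul_assoc]
  push_cast
  rw [inv_mul_cancel₀ hV.ne', one_mul]

theorem hat2_mul_re (a : Tor d L → ℝ) (k u : Tor d L) :
    hat2 a k * (chi k u).re = ∑ x, ∑ y, a x * a y * (chi k (u - x + y)).re := by
  have h1 : ((hat2 a k : ℝ) : ℂ) = ∑ x, ∑ y, ((a x * a y : ℝ) : ℂ) * (conj (chi k x) * chi k y) := by
    unfold hat2
    rw [Complex.ofReal_pow, ← Complex.conj_mul', map_sum, Finset.sum_mul_sum]
    refine Finset.sum_congr rfl fun x _ => Finset.sum_congr rfl fun y _ => ?_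
    rw [map_mul, Complex.conj_ofReal]; push_cast; ring
  rw [← Complex.re_ofReal_mul, h1, Finset.sum_mul, Complex.re_sum]
  refine Finset.sum_congr rfl fun x _ => ?_
  rw [Finset.sum_mul, Complex.re_sum]
  refine Finset.sum_congr rfl fun y _ => ?_
  rw [mul_assoc, Complex.re_ofReal_mul, chi_add, chi_sub]
  congr 2; ring

theorem ker_hat2 (a f : Tor d L → ℝ) (u : Tor d L) :
    ker (fun k => hat2 a k * f k) u = ∑ x, ∑ y, a x * a y * ker f (u - x + y) := by
  unfold ker
  simp only [← mul_div_assoc, ← Finset.sum_div]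
  congr 1
  simp only [mul_right_comm _ (f _), hat2_mul_re, Finset.sum_mul, Finset.mul_sum]
  rw [Finset.sum_comm]
  refine Finset.sum_congr rfl fun x _ => ?_
  rw [Finset.sum_comm]
  refine Finset.sum_congr rfl fun y _ => Finset.sum_congr rfl fun k _ => by ring

theorem hat2_nonneg (a : Tor d L → ℝ) (k : Tor d L) : 0 ≤ hat2 a k := sq_nonneg _

theorem sum_j_norm (hJ : Coup J) (k : Tor d L) :
    spinVal n * ∑ w, torJ J L 0 w * ‖1 - chi k w‖ ^ 2 = 2 * epsT n J k := by
  have h1 := congrArg Complex.re (lap_chi hJ n k 0)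
  rw [chi_zero, mul_one, Complex.ofReal_re, Complex.re_ofReal_mul, Complex.re_sum] at h1
  rw [← h1, mul_left_comm, Finset.mul_sum _ _ (2 : ℝ)]
  congr 1
  refine Finset.sum_congr rfl fun w _ => ?_
  have h2 : (chi k w).re ^ 2 + (chi k w).im ^ 2 = 1 := by
    have := Complex.sq_norm (chi k w)
    rw [norm_chi, Complex.normSq_apply] at this; nlinarith
  rw [Complex.re_ofReal_mul, Complex.sq_norm, Complex.normSq_apply]
  simp only [Complex.sub_re, Complex.one_re, Complex.sub_im, Complex.one_im]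
  have : (1 - (chi k w).re) * (1 - (chi k w).re) + (0 - (chi k w).im) * (0 - (chi k w).im) =
      2 * (1 - (chi k w).re) := by nlinarith
  rw [this]; ring

theorem mode_real {q S e E μ Y : ℝ} (hS : 1 / 2 ≤ S) (he : 0 ≤ e) (hμ : 0 < μ) (heE : e ≤ E)
    (hμE : μ ≤ E) (hY : 0 ≤ Y) {T : ℝ} (hT0 : 0 ≤ T) (hT : S * T = 2 * e) (hq : q ≤ T * Y) :
    4 * q / E ^ 2 ≤ 32 * (1 / (e + μ) * Y) := by
  have hE : 0 < E := hμ.trans_le hμE
  have h1 : T ≤ 4 * E := by nlinarith
  calc 4 * q / E ^ 2 ≤ 4 * (4 * E * Y) / E ^ 2 := by gcongr; exact hq.trans (by gcongr)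
    _ = 32 * (1 / (E + E) * Y) := by field_simp; ring
    _ ≤ _ := by gcongr

end Hi

open Crest.MathPhysics.SpinModel Filter Topology Matrix Free Hi

/-- **(High)** -/
theorem high (hM : ModeStmt) (hN : NewtonStmt) : HighStmt := by
  intro d n J hd hn hJ
  obtain ⟨L1, hL1⟩ := hM d n J hd hn hJ
  obtain ⟨C0, L2, -, hL2⟩ := free d n J hd hn hJ
  set j : ℝ := ∑ z ∈ sp hJ, J z with hj
  have hj0 : 0 ≤ j := Finset.sum_nonneg fun z _ => hJ.nonneg z
  set K1 : ℝ := 16 * Real.exp 1 ^ 2 * n with hK1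
  set K2 : ℝ := 4 / 3 * Real.exp 1 ^ 3 * 12 ^ 3 with hK2
  have hK10 : 0 ≤ K1 := by positivity
  have hK20 : 0 ≤ K2 := by positivity
  have hn0 : (0 : ℝ) ≤ n := Nat.cast_nonneg n
  have hC0 : 0 ≤ 32 * j * (K1 + 4 * K2) := by positivity
  refine ⟨1 + 3 * n + 32 * j * (K1 + 4 * K2), max L1 L2, by linarith, ?_⟩
  intro L _ hL β h A hβ hh hA a ha
  obtain ⟨-, h2, h3, ⟨hρ0, hρr, -⟩, h5, h6⟩ := hL1 L (le_of_max_le_left hL) β h hβ
  obtain ⟨hF, hε, -, hker⟩ := hL2 L (le_of_max_le_right hL)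
  obtain ⟨hpar, -, -, -, h7⟩ := h6 a
  clear hL1 hL2 h6
  have hV : (0 : ℝ) < (L : ℝ) ^ d := vol_pos
  have hμ : 0 < A / β := by positivity
  have hr0 : 0 ≤ rS n J L β h := hρ0.trans hρr
  have hr : ∀ x : Tor d L, ev n (torJ J L) β h (Sm n x * Sp n x) = rS n J L β h := fun x => by
    rw [rS, ← h2 0 0 x, zero_add]
  set μ := A / β with hμdef
  set f : Tor d L → ℝ := fun k => 1 / (epsT n J k + μ) with hf
  have hf0 : ∀ k, 0 ≤ f k := fun k => by have := hε k; positivity
  have hfM : ∀ k, f k ≤ 1 / μ := fun k =>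
    one_div_le_one_div_of_le hμ (by linarith [hε k])
  have hG0 : ∀ x, 0 ≤ ker f x := (hker μ hμ).1
  have hshift := fun w => (h7 f fun k => by simp only [hf, epsT_neg hJ]).2.2 hf0 (1 / μ) w hfM
  set Γ : Tor d L → ℝ := ker fun k => hat2 a k * f k with hΓ
  have hΓ0 : ∀ u, 0 ≤ Γ u := fun u => by
    rw [hΓ, ker_hat2]
    exact Finset.sum_nonneg fun x _ => Finset.sum_nonneg fun y _ =>
      mul_nonneg (mul_nonneg (ha x) (ha y)) (hG0 _)
  have hΓg : Γ 0 = gform n J μ a := by
    simp only [hΓ, ker, gform, hf, chi_zero, Complex.one_re, mul_one, mul_one_div]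
  have hQ0 := Qf_nonneg (n := n) (torJ J L) β h a
  have hΓc : ∀ w t : Tor d L, ∑ u, Γ u * ev n (torJ J L) β h (Sm n (u + w) * Sp n t) ≤
      Qf n (torJ J L) β h a / μ := by
    intro w t
    refine le_trans (le_of_eq ?_) ((hshift (w - t)).trans_eq (by ring))
    simp only [hΓ, ker_hat2, Finset.sum_mul]
    rw [Finset.sum_comm]
    refine Finset.sum_congr rfl fun x _ => ?_
    rw [Finset.sum_comm]
    refine Finset.sum_congr rfl fun y _ => ?_
    rw [← Equiv.sum_comp (Equiv.addRight (x - y))]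
    refine Finset.sum_congr rfl fun s _ => ?_
    simp only [Equiv.coe_addRight]
    rw [← h2 (s + (x - y) + w) t (y - t), show s + (x - y) - x + y = s by abel,
      show s + (x - y) + w + (y - t) = x + s + (w - t) by abel, show t + (y - t) = y by abel]
  -- the correlation sum
  have hcorr : ∀ w : Tor d L, ∑ u, Γ u * corr n J β h w u ≤
      (K1 + 4 * K2) * rS n J L β h ^ 2 * (gform n J μ a + Qf n (torJ J L) β h a / μ) := by
    intro w
    have hb : ∀ u : Tor d L, Γ u * corr n J β h w u ≤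
        (if u = 0 then K1 * rS n J L β h ^ 2 * gform n J μ a else 0) +
        K2 * rS n J L β h ^ 2 * (Γ u * ev n (torJ J L) β h (Sm n (u + w) * Sp n 0) +
          Γ u * ev n (torJ J L) β h (Sm n (u + w) * Sp n w) +
          Γ u * ev n (torJ J L) β h (Sm n (u + 0) * Sp n 0) +
          Γ u * ev n (torJ J L) β h (Sm n (u + 0) * Sp n w)) := by
      intro u
      have hc := fun x y : Tor d L => mul_nonneg (hΓ0 u) (c_nonneg (n := n) (h := h) hF hβ x y)
      split_ifs with hu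
      · have b1 := mul_le_mul_of_nonneg_left
          (corr_crude (h := h) hN hn hF hβ hr0 hr (u + w) u 0 w) (hΓ0 u)
        have b2 := mul_nonneg (mul_nonneg hK20 (sq_nonneg (rS n J L β h)))
          (add_nonneg (add_nonneg (add_nonneg (hc (u + w) 0) (hc (u + w) w)) (hc (u + 0) 0))
            (hc (u + 0) w))
        have b3 : gform n J μ a = Γ u := by rw [hu, hΓg]
        rw [← hK1] at b1
        rw [b3, corr]
        linarith
      · have b1 := mul_le_mul_of_nonneg_left
          (corr_fine (h := h) hN hn hF hβ hr0 hr (u + w) u 0 w hu) (hΓ0 u)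
        rw [← hK2] at b1
        rw [corr, add_zero u]
        linarith
    refine (Finset.sum_le_sum fun u _ => hb u).trans ?_
    simp only [Finset.sum_add_distrib, ← Finset.mul_sum, Finset.sum_ite_eq', Finset.mem_univ,
      if_true]
    have hg0 : 0 ≤ gform n J μ a := hΓg ▸ hΓ0 0
    have hq0 : 0 ≤ Qf n (torJ J L) β h a / μ := div_nonneg hQ0 hμ.le
    have b1 := mul_le_mul_of_nonneg_left (add_le_add (add_le_add (add_le_add (hΓc w 0) (hΓc w w))
      (hΓc 0 0)) (hΓc 0 w)) (mul_nonneg hK20 (sq_nonneg (rS n J L β h)))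
    have b2 := mul_nonneg (mul_nonneg hK20 (sq_nonneg (rS n J L β h))) hg0
    have b3 := mul_nonneg (mul_nonneg hK10 (sq_nonneg (rS n J L β h))) hq0
    linarith
  -- one mode
  set Y : Tor d L → ℝ := fun k =>
    ∑ w, torJ J L 0 w * ev n (torJ J L) β h ((Yk n k w)ᴴ * Yk n k w) with hY
  have hY0 : ∀ k, 0 ≤ Y k := fun k => Finset.sum_nonneg fun w _ =>
    mul_nonneg (hF.nonneg _ _) (ev_star_nonneg _ _ _ _)
  have hmode : ∀ k : Tor d L, A ≤ β * (epsT n J k + h) →
      uk n J β h k ≤ 32 * (f k * Y k) + 3 * n * Real.exp (-(A / 2)) := by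
    intro k hk
    obtain ⟨e1, e2, -⟩ := h5 k
    have hE : 0 < epsT n J k + h := by linarith [hε k]
    have b1 := one_mode hβ (Bk n k) (Jk n J k) hE hA hk hn0 e1
      (show vk n J β h k - uk n J β h k ≤ n by linarith)
    have b2 := ev_wsum_le (J := torJ J L) (β := β) (h := h) (fun w => torJ J L 0 w)
      (fun w => hF.nonneg _ _) (fun w => 1 - chi k w) (Yk n k)
    rw [← Jk_eq] at b2
    have hS : 1 / 2 ≤ spinVal n := by
      have : (1 : ℝ) ≤ n := by exact_mod_cast hn
      unfold spinVal; linarith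
    have b3 := mode_real hS (hε k) hμ (by linarith : epsT n J k ≤ epsT n J k + h)
      (by rw [hμdef, div_le_iff₀' hβ]; exact hk) (hY0 k)
      (Finset.sum_nonneg fun w _ => mul_nonneg (hF.nonneg _ _) (sq_nonneg _)) (sum_j_norm hJ k) b2
    exact b1.trans (add_le_add_left b3 _)
  have hsum : (∑ k, hat2 a k * (f k * Y k)) / (L : ℝ) ^ d =
      ∑ w, torJ J L 0 w * ∑ u, Γ u * corr n J β h w u := by
    simp only [hY, ev_Yk hF hβ h3, hΓ, ker, Finset.mul_sum, Finset.sum_div, Finset.sum_mul]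
    rw [Finset.sum_comm]
    refine Finset.sum_congr rfl fun w _ => ?_
    rw [Finset.sum_comm]
    refine Finset.sum_congr rfl fun u _ => Finset.sum_congr rfl fun k _ => by ring
  have hjs : ∑ w : Tor d L, torJ J L 0 w = j := by
    simpa using sum_torJ_real hJ (0 : Tor d L) fun _ => 1
  have hsum2 : (∑ k, hat2 a k * (f k * Y k)) / (L : ℝ) ^ d ≤
      j * ((K1 + 4 * K2) * rS n J L β h ^ 2 * (gform n J μ a + Qf n (torJ J L) β h a / μ)) := by
    rw [hsum, ← hjs, Finset.sum_mul]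
    exact Finset.sum_le_sum fun w _ => mul_le_mul_of_nonneg_left (hcorr w) (hF.nonneg _ _)
  have hfin : (∑ k ∈ Finset.univ.filter (fun k : Tor d L => A ≤ β * (epsT n J k + h)),
      hat2 a k * uk n J β h k) ≤
      ∑ k, hat2 a k * (32 * (f k * Y k) + 3 * n * Real.exp (-(A / 2))) := by
    refine (Finset.sum_le_sum fun k hk => mul_le_mul_of_nonneg_left
      (hmode k (Finset.mem_filter.1 hk).2) (hat2_nonneg a k)).trans
      (Finset.sum_le_sum_of_subset_of_nonneg (Finset.filter_subset _ _) fun k _ _ => ?_)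
    exact mul_nonneg (hat2_nonneg a k)
      (add_nonneg (mul_nonneg (by norm_num) (mul_nonneg (hf0 k) (hY0 k))) (by positivity))
  have heq : (∑ k, hat2 a k * (32 * (f k * Y k) + 3 * n * Real.exp (-(A / 2)))) / (L : ℝ) ^ d =
      32 * ((∑ k, hat2 a k * (f k * Y k)) / (L : ℝ) ^ d) +
        3 * n * Real.exp (-(A / 2)) * ∑ x, a x ^ 2 := by
    rw [← hpar, ← mul_div_assoc, ← mul_div_assoc, ← add_div, Finset.mul_sum, Finset.mul_sum,
      ← Finset.sum_add_distrib]
    congr 1
    exact Finset.sum_congr rfl fun k _ => by ring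
  refine (div_le_div_of_nonneg_right hfin hV.le).trans (heq.trans_le ?_)
  have hP : 0 ≤ rS n J L β h ^ 2 * (gform n J μ a + Qf n (torJ J L) β h a / μ) :=
    mul_nonneg (sq_nonneg _) (add_nonneg (hΓg ▸ hΓ0 0) (div_nonneg hQ0 hμ.le))
  have hR : 0 ≤ Real.exp (-(A / 2)) * ∑ x, a x ^ 2 := by positivity
  have c1 := mul_nonneg hC0 hR
  have c2 := mul_nonneg hn0 hP
  linarith

end Crest.Agent.N337.FV
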