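import Crest.Agent.N337.Basic

/-!
# Row 337, FV-KVG part 1: energy estimates and the abstract covering bound (helper96)
-/

set_option autoImplicit false
set_option linter.unusedSectionVars false

namespace Crest.Agent.N337.FV.KVG

open Finset Crest.MathPhysics.SpinModel

variable {X : Type} [Fintype X] [DecidableEq X] {J : X → X → ℝ} {S h : ℝ} {a g : X → ℝ}

/-- local energy -/
noncomputable def en (J : X → X → ℝ) (S h : ℝ) (g : X → ℝ) (x : X) : ℝ :=
  S * ∑ y, J x y * (g x - g y) ^ 2 + h * g x ^ 2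

theorem en_nonneg (hJ : Ferro J) (hS : 0 ≤ S) (hh : 0 ≤ h) (x : X) : 0 ≤ en J S h g x :=
  add_nonneg (mul_nonneg hS (sum_nonneg fun y _ => mul_nonneg (hJ.nonneg x y) (sq_nonneg _)))
    (mul_nonneg hh (sq_nonneg _))

theorem green (hJ : Ferro J) (hg : ∀ x, S * ∑ y, J x y * (g x - g y) + h * g x = a x)
    (φ : X → ℝ) : ∑ x, a x * φ x =
      ∑ x, ∑ y, S / 2 * J x y * ((g x - g y) * (φ x - φ y)) + ∑ x, h * (g x * φ x) := by
  have h1 : ∑ x, ∑ y, J x y * (g x - g y) * φ y = -∑ x, ∑ y, J x y * (g x - g y) * φ x := by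
    rw [sum_comm, ← sum_neg_distrib]
    refine sum_congr rfl fun x _ => ?_
    rw [← sum_neg_distrib]
    exact sum_congr rfl fun y _ => by rw [hJ.symm y x]; ring
  have h2 : ∑ x, ∑ y, S / 2 * J x y * ((g x - g y) * (φ x - φ y)) =
      S / 2 * (∑ x, ∑ y, J x y * (g x - g y) * φ x - ∑ x, ∑ y, J x y * (g x - g y) * φ y) := by
    simp only [← sum_sub_distrib, mul_sum]
    exact sum_congr rfl fun x _ => sum_congr rfl fun y _ => by ring
  have h3 : ∑ x, a x * φ x = S * ∑ x, ∑ y, J x y * (g x - g y) * φ x + ∑ x, h * (g x * φ x) := by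
    rw [mul_sum, ← sum_add_distrib]
    exact sum_congr rfl fun x _ => by rw [← hg x, ← sum_mul]; ring
  rw [h2, h1, h3]; ring

theorem sum_en_le (hJ : Ferro J) (hh : 0 ≤ h)
    (hg : ∀ x, S * ∑ y, J x y * (g x - g y) + h * g x = a x) :
    ∑ x, en J S h g x ≤ 2 * ∑ x, a x * g x := by
  rw [green hJ hg g, ← sum_add_distrib, mul_sum]
  refine sum_le_sum fun x _ => ?_
  have : S * ∑ y, J x y * (g x - g y) ^ 2 =
      2 * ∑ y, S / 2 * J x y * ((g x - g y) * (g x - g y)) := by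
    rw [mul_sum, mul_sum]; exact sum_congr rfl fun y _ => by ring
  have h2 : 0 ≤ h * g x ^ 2 := by positivity
  unfold en
  nlinarith

theorem cs_weight (hJ : Ferro J) (hS : 0 ≤ S) (hh : 0 ≤ h)
    (hg : ∀ x, S * ∑ y, J x y * (g x - g y) + h * g x = a x) {w : X → ℝ} (hw : ∀ x, 1 ≤ w x)
    (φ : X → ℝ) : (∑ x, a x * φ x) ^ 2 ≤ (∑ x, a x * g x + ∑ x, (w x - 1) * en J S h g x) *
      (S * ((1 / 2) * ∑ x, ∑ y, J x y * (φ x - φ y) ^ 2 / max (w x) (w y)) +
        h * ∑ x, φ x ^ 2 / w x) := by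
  have hw0 : ∀ x, 0 < w x := fun x => by linarith [hw x]
  have hm : ∀ x y, 0 < max (w x) (w y) := fun x y => lt_max_of_lt_left (hw0 x)
  have hc : ∀ x y, 0 ≤ S / 2 * J x y := fun x y => mul_nonneg (by linarith) (hJ.nonneg x y)
  have h1 := sum_sq_le_sum_mul_sum_of_sq_eq_mul (univ : Finset ((X × X) ⊕ X))
    (r := Sum.elim (fun p => S / 2 * J p.1 p.2 * ((g p.1 - g p.2) * (φ p.1 - φ p.2)))
      fun x => h * (g x * φ x))
    (f := Sum.elim (fun p => S / 2 * J p.1 p.2 * (g p.1 - g p.2) ^ 2 * max (w p.1) (w p.2))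
      fun x => h * g x ^ 2 * w x)
    (g := Sum.elim (fun p => S / 2 * J p.1 p.2 * (φ p.1 - φ p.2) ^ 2 / max (w p.1) (w p.2))
      fun x => h * φ x ^ 2 / w x)
    (by
      rintro (p | x) _
      · exact mul_nonneg (mul_nonneg (hc _ _) (sq_nonneg _)) (hm _ _).le
      · exact mul_nonneg (mul_nonneg hh (sq_nonneg _)) (hw0 _).le)
    (by
      rintro (p | x) _
      · exact div_nonneg (mul_nonneg (hc _ _) (sq_nonneg _)) (hm _ _).le
      · exact div_nonneg (mul_nonneg hh (sq_nonneg _)) (hw0 _).le)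
    (by
      rintro (p | x) _
      · have := (hm p.1 p.2).ne'
        simp only [Sum.elim_inl]; field_simp
      · have := (hw0 x).ne'
        simp only [Sum.elim_inr]; field_simp)
  simp only [Fintype.sum_sum_type, Sum.elim_inl, Sum.elim_inr, Fintype.sum_prod_type] at h1
  rw [← green hJ hg φ] at h1
  have e1 : ∑ x, ∑ y, S / 2 * J x y * (φ x - φ y) ^ 2 / max (w x) (w y) +
      ∑ x, h * φ x ^ 2 / w x = S * ((1 / 2) * ∑ x, ∑ y, J x y * (φ x - φ y) ^ 2 / max (w x) (w y)) +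
        h * ∑ x, φ x ^ 2 / w x := by
    simp only [mul_sum]
    congr 1
    · exact sum_congr rfl fun x _ => sum_congr rfl fun y _ => by ring
    · exact sum_congr rfl fun x _ => by ring
  rw [e1] at h1
  refine h1.trans (mul_le_mul_of_nonneg_right ?_ (e1 ▸ add_nonneg
    (sum_nonneg fun x _ => sum_nonneg fun y _ =>
      div_nonneg (mul_nonneg (hc _ _) (sq_nonneg _)) (hm _ _).le)
    (sum_nonneg fun x _ => div_nonneg (mul_nonneg hh (sq_nonneg _)) (hw0 _).le)))
  have h2 : ∑ x, ∑ y, S / 2 * J x y * (g x - g y) ^ 2 * (w y - 1) =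
      ∑ x, ∑ y, S / 2 * J x y * (g x - g y) ^ 2 * (w x - 1) := by
    rw [sum_comm]
    exact sum_congr rfl fun x _ => sum_congr rfl fun y _ => by rw [hJ.symm y x]; ring
  have h3 : ∑ x, ∑ y, S / 2 * J x y * (g x - g y) ^ 2 * max (w x) (w y) ≤
      ∑ x, ∑ y, S / 2 * J x y * ((g x - g y) * (g x - g y)) +
        ∑ x, ∑ y, S / 2 * J x y * (g x - g y) ^ 2 * (w x - 1) +
        ∑ x, ∑ y, S / 2 * J x y * (g x - g y) ^ 2 * (w y - 1) := by
    simp only [← sum_add_distrib]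
    refine sum_le_sum fun x _ => sum_le_sum fun y _ => ?_
    have h4 : max (w x) (w y) ≤ 1 + (w x - 1) + (w y - 1) :=
      max_le (by linarith [hw y]) (by linarith [hw x])
    have h5 := mul_le_mul_of_nonneg_left h4 (mul_nonneg (hc x y) (sq_nonneg (g x - g y)))
    linarith
  have h4 : ∑ x, (w x - 1) * en J S h g x =
      2 * ∑ x, ∑ y, S / 2 * J x y * (g x - g y) ^ 2 * (w x - 1) +
        (∑ x, h * g x ^ 2 * w x - ∑ x, h * (g x * g x)) := by
    simp only [en, mul_sum, ← sum_sub_distrib, ← sum_add_distrib, mul_add]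
    refine sum_congr rfl fun x _ => ?_
    congr 1
    · exact sum_congr rfl fun y _ => by ring
    · ring
  rw [green hJ hg g, h4]
  linarith

theorem sum_biUnion_le' {ι α : Type} [DecidableEq α] (s : Finset ι) (t : ι → Finset α)
    {f : α → ℝ} (hf : ∀ x, 0 ≤ f x) : ∑ x ∈ s.biUnion t, f x ≤ ∑ i ∈ s, ∑ x ∈ t i, f x := by
  classical
  induction s using Finset.induction_on with
  | empty => simp
  | insert i s hi ih =>
    rw [biUnion_insert, sum_insert hi]
    have h1 := sum_union_inter (s₁ := t i) (s₂ := s.biUnion t) (f := f)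
    have h2 : 0 ≤ ∑ x ∈ t i ∩ s.biUnion t, f x := sum_nonneg fun x _ => hf x
    linarith

theorem rar_nonneg (n : ℕ) (J : X → X → ℝ) (β h : ℝ) (B : Finset X) (m : ℕ) :
    0 ≤ rar n J β h B m := by
  have := Qf_nonneg (n := n) J β h (ind B)
  unfold rar; positivity

/-- the infrared bound for an abstract covering scheme -/
theorem kv_abs (hK : KVStmt) {n : ℕ} {β : ℝ} (hn : 1 ≤ n) (hJ : Ferro J) (hβ : 0 < β)
    (hh : 0 < h) (ha : ∀ x, 0 ≤ a x)
    (hg : ∀ x, spinVal n * ∑ y, J x y * (g x - g y) + h * g x = a x) {ι : Type} (s : Finset ι)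
    (W : ι → Finset (Finset X)) (N : ι → X → Prop) [∀ i x, Decidable (N i x)] (κ r : ι → ℝ)
    (D : ι → X → ℝ) {σ T : ℝ} (hne : ∀ i, ∅ ∉ W i) (hκ : ∀ i, 0 ≤ κ i) (hr0 : ∀ i, 0 ≤ r i)
    (hcov : ∀ R : Finset X, ∃ (Good : Finset X) (w : X → ℝ), Disjoint Good R ∧
      (∀ x, x ∉ Good → ∃ i ∈ s, N i x ∧ ∃ B ∈ W i, B ⊆ R) ∧
      (∀ x, w x = 1 ∨ (1 ≤ w x ∧ ∃ i ∈ s, w x ≤ κ i ∧ N i x ∧ ∃ B ∈ W i, B ⊆ R)) ∧
      ∀ ψ : X → ℝ, (∀ x, 0 ≤ ψ x) → ∃ φ : X → ℝ, (∀ x, 0 ≤ φ x) ∧ (∀ x ∈ Good, φ x = ψ x) ∧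
        (1 / 2) * ∑ x, ∑ y, J x y * (φ x - φ y) ^ 2 / max (w x) (w y) ≤ dir J R ψ ∧
        ∑ x, φ x ^ 2 / w x ≤ ∑ x ∈ Rᶜ, ψ x ^ 2)
    (hr : ∀ i ∈ s, ∀ B ∈ W i, ∀ x, rar n J β h (insert x B) B.card ≤ r i)
    (hD : ∀ i ∈ s, ∀ B ∈ W i, ∀ x, N i x →
      ∑ v ∈ insert x B, duh n J β h (SpF n a) (Sm n v) ≤ D i x)
    (hσ : ∀ x, ∑ i ∈ s with N i x, κ i * ((W i).card * r i) ≤ σ)
    (hT : ∑ x, a x * ∑ i ∈ s with N i x, (W i).card * (r i * D i x) ≤ T) :
    Df n J β h a ≤ n * ((1 + 2 * σ) * ∑ x, a x * g x) + 2 * n * Real.exp 1 * T := by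
  have hS : 0 ≤ spinVal n := by unfold spinVal; positivity
  have he := en_nonneg (g := g) hJ hS hh.le
  have hs := sum_en_le hJ hh.le hg
  have hc0 : 0 ≤ ∑ x, a x * g x := by linarith [sum_nonneg fun x (_ : x ∈ univ) => he x]
  let E : ι → ℝ := fun i => κ i * ∑ x with N i x, en J (spinVal n) h g x
  have hE : ∀ i, 0 ≤ E i := fun i => mul_nonneg (hκ i) (sum_nonneg fun x _ => he x)
  have hE' : ∀ F : ι → ℝ, ∑ i ∈ s, E i * F i =
      ∑ x, en J (spinVal n) h g x * ∑ i ∈ s with N i x, κ i * F i := fun F => by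
    simp only [E, sum_filter, mul_sum, sum_mul]
    rw [sum_comm]
    exact sum_congr rfl fun x _ => sum_congr rfl fun i _ => by split_ifs <;> ring
  let c : Finset X → ℝ := fun A => ∑ i ∈ s, if A ∈ W i then E i else 0
  have hc : ∀ (t : Finset (Finset X)) (F : Finset X → ℝ),
      ∑ A ∈ t, c A * F A = ∑ i ∈ s, E i * ∑ A ∈ W i with A ∈ t, F A := fun t F => by
    simp only [c, sum_mul]
    rw [sum_comm]
    refine sum_congr rfl fun i _ => ?_
    rw [filter_mem_eq_inter, inter_comm, ← filter_mem_eq_inter, sum_filter, mul_sum]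
    exact sum_congr rfl fun A _ => by split_ifs <;> ring
  have h1 := hK X n J β h hn hJ hβ hh a ha (∑ x, a x * g x) c
    (fun x => (s.filter fun i => N i x).biUnion W) hc0
    (fun A => sum_nonneg fun i _ => by split_ifs; exacts [hE i, le_rfl])
    (sum_eq_zero fun i _ => if_neg (hne i)) (fun x => by simp [hne]) fun R => ?_
  · refine h1.trans (add_le_add (mul_le_mul_of_nonneg_left ?_ (Nat.cast_nonneg n))
      (mul_le_mul_of_nonneg_left (le_trans ?_ hT) (by positivity)))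
    · have h2 : ∑ A, c A * rar n J β h A A.card ≤ ∑ i ∈ s, E i * ((W i).card * r i) := by
        rw [hc]
        refine sum_le_sum fun i hi => mul_le_mul_of_nonneg_left ?_ (hE i)
        rw [filter_true_of_mem fun _ _ => mem_univ _, ← nsmul_eq_mul]
        refine sum_le_card_nsmul _ _ _ fun B hB => ?_
        obtain ⟨x, hx⟩ := nonempty_iff_ne_empty.2 (ne_of_mem_of_not_mem hB (hne i))
        have := hr i hi B hB x
        rwa [insert_eq_of_mem hx] at this
      rw [hE'] at h2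
      have h3 : ∑ x, en J (spinVal n) h g x * ∑ i ∈ s with N i x, κ i * ((W i).card * r i) ≤
          ∑ x, en J (spinVal n) h g x * σ :=
        sum_le_sum fun x _ => mul_le_mul_of_nonneg_left (hσ x) (he x)
      rw [← sum_mul] at h3
      rcases isEmpty_or_nonempty X with hX | ⟨⟨x⟩⟩
      · simp only [univ_eq_empty, sum_empty] at h2 ⊢; linarith
      have hσ0 : 0 ≤ σ := le_trans (sum_nonneg fun i _ =>
        mul_nonneg (hκ i) (mul_nonneg (Nat.cast_nonneg _) (hr0 i))) (hσ x)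
      nlinarith
    · have hd : ∀ v, 0 ≤ duh n J β h (SpF n a) (Sm n v) := fun v =>
        duh_nonneg h hJ hβ.le (pos_SpF ha) (pos_Sm v)
      refine sum_le_sum fun x _ => mul_le_mul_of_nonneg_left ?_ (ha x)
      refine (sum_biUnion_le' _ _ fun B => mul_nonneg (rar_nonneg _ _ _ _ _ _)
        (sum_nonneg fun v _ => hd v)).trans (sum_le_sum fun i hi => ?_)
      rw [← nsmul_eq_mul]
      refine sum_le_card_nsmul _ _ _ fun B hB => ?_
      exact mul_le_mul (hr i (mem_filter.1 hi).1 B hB x) (hD i (mem_filter.1 hi).1 B hB x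
        (mem_filter.1 hi).2) (sum_nonneg fun v _ => hd v) (hr0 i)
  · obtain ⟨Good, w, g1, g2, g3, g4⟩ := hcov R
    refine ⟨Good, g1, fun ψ hψ => ?_, fun x hx => ?_⟩
    · obtain ⟨φ, p1, p2, p3, p4⟩ := g4 ψ hψ
      have hw : ∀ x, 1 ≤ w x := fun x => (g3 x).elim (fun h => h.ge) fun h => h.1
      have h2 : ∑ x ∈ Good, a x * ψ x ≤ ∑ x, a x * φ x := by
        rw [← sum_congr rfl fun x hx => congrArg (a x * ·) (p2 x hx)]
        exact sum_le_sum_of_subset_of_nonneg (subset_univ _) fun x _ _ => mul_nonneg (ha x) (p1 x)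
      have h3 : ∑ x, (w x - 1) * en J (spinVal n) h g x ≤ ∑ A ∈ R.powerset, c A := by
        have h4 := hc R.powerset fun _ => 1
        simp only [mul_one] at h4
        rw [h4, hE']
        refine sum_le_sum fun x _ => ?_
        rw [mul_comm]
        refine mul_le_mul_of_nonneg_left ?_ (he x)
        have h5 : ∀ i, 0 ≤ κ i * ∑ A ∈ W i with A ∈ R.powerset, (1 : ℝ) := fun i =>
          mul_nonneg (hκ i) (sum_nonneg fun _ _ => zero_le_one)
        rcases g3 x with h6 | ⟨-, i, hi, h6, h7, B, hB, hBR⟩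
        · rw [h6, sub_self]; exact sum_nonneg fun i _ => h5 i
        · refine le_trans ?_ (single_le_sum (fun i _ => h5 i) (mem_filter.2 ⟨hi, h7⟩))
          have h8 : (1 : ℝ) ≤ ∑ A ∈ W i with A ∈ R.powerset, (1 : ℝ) :=
            single_le_sum (f := fun _ => (1 : ℝ)) (fun _ _ => zero_le_one)
              (mem_filter.2 ⟨hB, mem_powerset.2 hBR⟩)
          nlinarith [hκ i]
      have h4 := cs_weight hJ hS hh.le hg hw φ
      have h5 : 0 ≤ ∑ x, (w x - 1) * en J (spinVal n) h g x :=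
        sum_nonneg fun x _ => mul_nonneg (sub_nonneg.2 (hw x)) (he x)
      refine (pow_le_pow_left₀ (sum_nonneg fun x _ => mul_nonneg (ha x) (hψ x)) h2 2).trans
        (h4.trans (mul_le_mul (by linarith) (add_le_add (mul_le_mul_of_nonneg_left p3 hS)
          (mul_le_mul_of_nonneg_left p4 hh.le)) ?_ (by linarith)))
      refine add_nonneg (mul_nonneg hS (mul_nonneg (by norm_num) (sum_nonneg fun x _ =>
        sum_nonneg fun y _ => div_nonneg (mul_nonneg (hJ.nonneg x y) (sq_nonneg _)) ?_)))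
        (mul_nonneg hh.le (sum_nonneg fun x _ => div_nonneg (sq_nonneg _) (by linarith [hw x])))
      exact le_max_of_le_left (by linarith [hw x])
    · obtain ⟨i, hi, h2, B, hB, hBR⟩ := g2 x hx
      exact ⟨B, mem_biUnion.2 ⟨i, mem_filter.2 ⟨hi, h2⟩, hB⟩, hBR⟩

theorem Qf_add_le (n : ℕ) (J : X → X → ℝ) (β h : ℝ) (a b : X → ℝ) :
    Qf n J β h (a + b) ≤ 2 * Qf n J β h a + 2 * Qf n J β h b := by
  have h1 := Qf_nonneg (n := n) J β h (a - b)
  have e1 : SpF n (a + b) = SpF n a + SpF n b := by simp [SpF, add_smul, sum_add_distrib]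
  have e2 : SmF n (a + b) = SmF n a + SmF n b := by simp [SmF, add_smul, sum_add_distrib]
  have e3 : SpF n (a - b) = SpF n a - SpF n b := by simp [SpF, sub_smul, sum_sub_distrib]
  have e4 : SmF n (a - b) = SmF n a - SmF n b := by simp [SmF, sub_smul, sum_sub_distrib]
  simp only [Qf, e1, e2, e3, e4, Matrix.add_mul, Matrix.mul_add, Matrix.sub_mul, Matrix.mul_sub,
    ev_add, ev_sub] at h1 ⊢
  linarith

theorem Qf_single (n : ℕ) (J : X → X → ℝ) (β h : ℝ) (x : X) :
    Qf n J β h (ind {x}) = ev n J β h (Sm n x * Sp n x) := by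
  simp [Qf, SpF, SmF, ind, apply_ite, ite_smul]

theorem Qf_insert_le (n : ℕ) (J : X → X → ℝ) (β h : ℝ) (x : X) (B : Finset X) :
    Qf n J β h (ind (insert x B)) ≤
      2 * Qf n J β h (ind B) + 2 * ev n J β h (Sm n x * Sp n x) := by
  rw [← Qf_single]
  by_cases hx : x ∈ B
  · rw [insert_eq_of_mem hx]
    linarith [Qf_nonneg (n := n) J β h (ind B), Qf_nonneg (n := n) J β h (ind {x})]
  · have : ind (insert x B) = ind B + ind {x} := by
      funext y
      by_cases hy : y = x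
      · simp [ind, hy, hx]
      · simp [ind, hy]
    rw [this]
    exact Qf_add_le n J β h _ _

end Crest.Agent.N337.FV.KVG
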