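import Crest.Agent.N337.FV.Defs
import Crest.Agent.N337.FV.KVG1
import Crest.Agent.N337.Free.Main

/-!
# Row 337, FV-KVG: the infrared bound on the torus under a smallness hypothesis (helper96)
-/

set_option autoImplicit false

namespace Crest.Agent.N337.FV

open Finset Crest.MathPhysics.SpinModel Crest.Agent.N337.Free
open scoped ComplexConjugate

namespace KVG

variable {d L : ℕ} [NeZero L] {J : (Fin d → ℤ) → ℝ}

theorem lap_ker (hJ : Coup J) (n : ℕ) (f : Tor d L → ℝ) (x z : Tor d L) :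
    spinVal n * ∑ y, torJ J L x y * (ker f (x - z) - ker f (y - z)) =
      ker (fun k => epsT n J k * f k) (x - z) := by
  have key : ∀ k : Tor d L, spinVal n * ∑ y, torJ J L x y * ((chi k (x - z)).re -
      (chi k (y - z)).re) = epsT n J k * (chi k (x - z)).re := fun k => by
    have := congrArg (fun c => (c * conj (chi k z)).re) (lap_chi hJ n k x)
    simpa only [mul_assoc, sum_mul, sub_mul, ← chi_sub, Complex.re_ofReal_mul, Complex.re_sum,
      Complex.sub_re] using this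
  simp only [ker, ← sub_div, ← sum_sub_distrib, ← mul_sub, ← mul_div_assoc, ← sum_div]
  congr 1
  simp only [mul_sum] at key ⊢
  rw [sum_comm]
  refine sum_congr rfl fun k _ => ?_
  rw [mul_right_comm, ← key, sum_mul]
  exact sum_congr rfl fun y _ => by ring

theorem resolvent (hJ : Coup J) (n : ℕ) {h : ℝ} (hh : 0 < h) (a : Tor d L → ℝ) (x : Tor d L) :
    spinVal n * ∑ y, torJ J L x y * (∑ z, ker (fun k => 1 / (epsT n J k + h)) (x - z) * a z -
      ∑ z, ker (fun k => 1 / (epsT n J k + h)) (y - z) * a z) +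
      h * ∑ z, ker (fun k => 1 / (epsT n J k + h)) (x - z) * a z = a x := by
  have key : ∀ z, spinVal n * ∑ y, torJ J L x y * (ker (fun k => 1 / (epsT n J k + h)) (x - z) -
      ker (fun k => 1 / (epsT n J k + h)) (y - z)) +
      h * ker (fun k => 1 / (epsT n J k + h)) (x - z) = if x = z then 1 else 0 := fun z => by
    rw [lap_ker hJ]
    have := ker_one (x - z)
    simp only [sub_eq_zero] at this
    rw [← this]
    simp only [ker, ← mul_div_assoc h, ← add_div, mul_sum, ← sum_add_distrib]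
    congr 1
    refine sum_congr rfl fun k _ => ?_
    have : epsT n J k + h ≠ 0 := (add_pos_of_nonneg_of_pos (eps_nonneg hJ n _) hh).ne'
    field_simp
  calc _ = ∑ z, (if x = z then 1 else 0) * a z := by
        simp only [← key, add_mul, sum_add_distrib, ← sum_sub_distrib, mul_sum, sum_mul]
        rw [sum_comm]
        congr 1
        · exact sum_congr rfl fun y _ => sum_congr rfl fun z _ => by ring
        · exact sum_congr rfl fun z _ => by ring
    _ = a x := by simp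

theorem sum_near_le (x : Tor d L) (jm : ℕ) (rad : ℕ → ℕ) (F : ℕ × Tor d L → ℝ) (G κ : ℕ → ℝ)
    (hG : ∀ j, 0 ≤ G j) (hF : ∀ j ≤ jm, ∀ u, F (j, u) ≤ G j)
    (hκ : ∀ j ≤ jm, ((2 * rad j + 1 : ℕ) : ℝ) ^ d ≤ κ j) :
    ∑ i ∈ range (jm + 1) ×ˢ (univ : Finset (Tor d L)) with tdist x i.2 ≤ rad i.1, F i ≤
      ∑ j ∈ range (jm + 1), κ j * G j := by
  rw [sum_filter, sum_product]
  refine sum_le_sum fun j hj => ?_
  have hj' := Nat.lt_succ_iff.1 (mem_range.1 hj)
  rw [← sum_filter]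
  refine (sum_le_card_nsmul _ _ _ fun u _ => hF j hj' u).trans ?_
  rw [nsmul_eq_mul]
  refine mul_le_mul_of_nonneg_right (le_trans ?_ (hκ j hj')) (hG j)
  exact_mod_cast card_ball_le x (rad j)

theorem geo_le {θ : ℝ} (h0 : 0 ≤ θ) (h1 : θ ≤ 1 / 2) (m : ℕ) :
    ∑ j ∈ range m, θ ^ (2 ^ (j + 1)) ≤ 2 * θ ^ 2 := by
  have key : ∀ m, ∑ j ∈ range m, θ ^ (2 ^ (j + 1)) ≤ 2 * θ ^ 2 - 2 * θ ^ (m + 2) := fun m => by
    induction m with
    | zero => simp
    | succ m ih =>
      rw [sum_range_succ]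
      have h2 : θ ^ (2 ^ (m + 1)) ≤ θ ^ (m + 2) :=
        pow_le_pow_of_le_one h0 (by linarith) (Nat.lt_two_pow_self (n := m + 1))
      have h3 : θ ^ (m + 2) * θ ≤ θ ^ (m + 2) * (1 / 2) := by gcongr
      rw [show m + 1 + 2 = m + 2 + 1 by ring, pow_succ θ (m + 2)]
      linarith
  linarith [key m, pow_nonneg h0 (m + 2)]

end KVG

open KVG in
theorem kvg (hM : ModeStmt) (hK : KVStmt) (hG : GeoStmt) : KVGStmt := by
  intro d n J hd hn hJ
  obtain ⟨K, L1, hK1, hGeo⟩ := hG d J (by omega) hJ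
  obtain ⟨L2, hMode⟩ := hM d n J hd hn hJ
  obtain ⟨C3, L3, -, hFree⟩ := free d n J hd hn hJ
  obtain ⟨t, ht⟩ : ∃ t : ℝ, t = 2 * n * Real.exp 1 := ⟨_, rfl⟩
  have ht1 : 1 ≤ t := by
    have h1 : (1 : ℝ) ≤ n := by exact_mod_cast hn
    have h2 := Real.add_one_le_exp 1
    rw [ht]; nlinarith
  obtain ⟨p, hp⟩ : ∃ p : ℝ, p = K ^ 3 * t := ⟨_, rfl⟩
  have hp1 : 1 ≤ p := hp ▸ one_le_mul_of_one_le_of_one_le (one_le_pow₀ hK1) ht1
  obtain ⟨q, hq⟩ : ∃ q : ℝ, q = t * 2 ^ d := ⟨_, rfl⟩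
  have hq1 : 1 ≤ q := hq ▸ one_le_mul_of_one_le_of_one_le ht1 (one_le_pow₀ one_le_two)
  have hpq : 1 ≤ q * p := one_le_mul_of_one_le_of_one_le hq1 hp1
  refine ⟨K, (4 + 2 * q) * (20 * p ^ 2), 1 / (80 * q * p ^ 2), max L1 (max L2 L3), hK1,
    by nlinarith, by positivity, ?_⟩
  intro L _ hL β h η0 η1 hβ hh a0 a1 b0 b1 hrS hQ a ha
  obtain ⟨jm, 𝒲, rad, g1, g2, g3, g4, g5⟩ := hGeo L (by omega)
  obtain ⟨-, m2, -, -, -, m6⟩ := hMode L (by omega) β h hβ
  obtain ⟨hF, -, -, f4⟩ := hFree L (by omega)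
  obtain ⟨-, -, -, m7, m8⟩ := m6 a
  rw [le_div_iff₀ (by positivity)] at a1 b1
  have a2 : η0 * (80 * p) ≤ 1 := le_trans (by nlinarith [mul_nonneg a0 (by linarith : 0 ≤ p)]) a1
  have b2 : η1 * (80 * p) ≤ 1 := le_trans (by nlinarith [mul_nonneg b0 (by linarith : 0 ≤ p)]) b1
  have hS : ∀ x : Tor d L, ev n (torJ J L) β h (Sm n x * Sp n x) ≤ η0 := fun x => by
    have := m2 0 0 x
    rw [zero_add] at this
    rw [this]; exact hrS
  let r : ℕ → ℝ := fun j => if j = 0 then t * (4 * η0) else (t * (2 * η1 + η0)) ^ (2 ^ j)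
  have hr0 : ∀ j, 0 ≤ r j := fun j => by simp only [r]; split_ifs <;> positivity
  obtain ⟨σ, hσ⟩ : ∃ σ, σ = ∑ j ∈ range (jm + 1), (K ^ 2 ^ j) ^ 3 * r j := ⟨_, rfl⟩
  have hσ0 : 0 ≤ σ := hσ ▸ sum_nonneg fun j _ => mul_nonneg (by positivity) (hr0 j)
  have hσ1 : σ ≤ 20 * p ^ 2 * (η0 + η1 ^ 2) := by
    have h1 := geo_le (θ := p * (2 * η1 + η0)) (by positivity) (by nlinarith) jm
    have h2 : ∀ j, (K ^ 2 ^ (j + 1)) ^ 3 * r (j + 1) = (p * (2 * η1 + η0)) ^ 2 ^ (j + 1) :=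
      fun j => by
        simp only [r, Nat.succ_ne_zero, if_false]
        rw [hp, mul_assoc, mul_pow (K ^ 3), ← pow_mul, ← pow_mul, mul_comm 3]
    rw [hσ, sum_range_succ', sum_congr rfl fun j _ => h2 j]
    simp only [r, if_true, pow_zero, pow_one]
    rw [← mul_assoc, ← hp]
    have h3 : (2 * η1 + η0) ^ 2 ≤ 8 * η1 ^ 2 + 2 * η0 := by nlinarith [sq_nonneg (2 * η1 - η0)]
    have h4 : p ^ 2 * (2 * η1 + η0) ^ 2 ≤ p ^ 2 * (8 * η1 ^ 2 + 2 * η0) := by gcongr
    have h5 : p * η0 ≤ p ^ 2 * η0 := by gcongr; nlinarith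
    have h6 : 0 ≤ p ^ 2 * η0 := by positivity
    have h7 : 0 ≤ p ^ 2 * η1 ^ 2 := by positivity
    nlinarith
  have hdu : ∀ v, 0 ≤ duh n (torJ J L) β h (SpF n a) (Sm n v) := fun v =>
    duh_nonneg h hF hβ.le (pos_SpF ha) (pos_Sm v)
  have hDf := Df_nonneg (n := n) (torJ J L) h hβ.le a
  let D : ℕ → Tor d L → ℝ := fun j x =>
    ∑ w with tdist 0 w ≤ 2 * rad j, duh n (torJ J L) β h (SpF n a) (Sm n (x + w))
  have hD0 : ∀ j x, 0 ≤ D j x := fun j x => sum_nonneg fun w _ => hdu _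
  have main := kv_abs hK hn hF hβ hh ha (resolvent hJ n hh a)
    (range (jm + 1) ×ˢ (univ : Finset (Tor d L))) (fun i => 𝒲 i.1 i.2)
    (fun i x => tdist x i.2 ≤ rad i.1) (fun i => K ^ 2 ^ i.1) (fun i => r i.1)
    (fun i => D i.1) (σ := σ) (T := 2 ^ d * σ * Df n (torJ J L) β h a)
    (fun i hi => absurd (g4 _ _ _ hi).1 (by simp [(Nat.two_pow_pos _).ne])) (fun i => by positivity)
    (fun i => hr0 _) (fun R => ?_) (fun i hi B hB x => ?_) (fun i hi B hB x hx => ?_)
    (fun x => ?_) ?_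
  · have e1 : ∑ x, a x * ∑ z, ker (fun k => 1 / (epsT n J k + h)) (x - z) * a z =
        gform n J h a := by
      have := (m8 (fun k => 1 / (epsT n J k + h)) fun k => by rw [epsT_neg hJ]).2.1
      simp only [mul_sum, ← mul_assoc]
      rw [← this, gform]
      simp only [one_div_mul_eq_div]
    have hc0 : 0 ≤ gform n J h a := e1 ▸ sum_nonneg fun x _ => mul_nonneg (ha x)
      (sum_nonneg fun z _ => mul_nonneg ((f4 h hh).1 _) (ha z))
    rw [e1, ← ht, ← mul_assoc t, ← mul_assoc t, ← hq] at main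
    have h1 : 0 ≤ (n : ℝ) * gform n J h a := by positivity
    have h2 : η1 ^ 2 ≤ η1 := by nlinarith
    have h3 : q * σ ≤ q * (20 * p ^ 2 * (η0 + η1 ^ 2)) := by gcongr
    have h4 : q * (20 * p ^ 2 * (η0 + η1 ^ 2)) ≤ q * (20 * p ^ 2 * (η0 + η1)) := by gcongr
    have h5 : q * σ ≤ 1 / 2 := by linarith
    have h6 : 0 ≤ q * σ := by positivity
    set x := q * σ with hx
    set y := (n : ℝ) * gform n J h a with hy
    have h7 : Df n (torJ J L) β h a * (1 - x) ≤ (1 + 2 * σ) * y := by rw [hy]; linarith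
    have h8 : Df n (torJ J L) β h a ≤ (1 + 2 * σ) * y * (1 + 2 * x) := by
      have h9 := mul_le_mul_of_nonneg_right h7 (by linarith : 0 ≤ 1 + 2 * x)
      have h10 : 0 ≤ Df n (torJ J L) β h a * (x * (1 - 2 * x)) :=
        mul_nonneg hDf (mul_nonneg h6 (by linarith))
      linarith
    have h9 : (1 + 2 * σ) * (1 + 2 * x) ≤ 1 + (4 + 2 * q) * (20 * p ^ 2) * (η0 + η1 ^ 2) := by
      have := mul_le_mul_of_nonneg_left h5 hσ0
      linarith
    rw [mul_assoc, ← hy]
    exact h8.trans (by rw [mul_right_comm]; exact mul_le_mul_of_nonneg_right h9 h1)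
  · obtain ⟨Good, w, k1, k2, k3, k4⟩ := g5 R
    refine ⟨Good, w, k1, fun x hx => ?_, fun x => (k3 x).imp_right ?_, k4⟩
    · obtain ⟨j, hj, u, h1, h2⟩ := k2 x hx
      exact ⟨(j, u), by simp [hj], h1, h2⟩
    · rintro ⟨h0, j, hj, h1, u, h2, h3⟩
      exact ⟨h0, (j, u), by simp [hj], h1, h2, h3⟩
  · obtain ⟨k1, -, k3⟩ := g4 _ _ _ hB
    have hj : i.1 ≤ jm := Nat.lt_succ_iff.1 (mem_range.1 (mem_product.1 hi).1)
    have h1 := Qf_insert_le n (torJ J L) β h x B
    have h2 := Qf_nonneg (n := n) (torJ J L) β h (ind (insert x B))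
    simp only [rar, r, ← ht]
    split_ifs with h0
    · rw [h0, pow_zero] at k1
      obtain ⟨y, rfl⟩ := card_eq_one.1 k1
      rw [Qf_single] at h1
      rw [card_singleton, pow_one, Nat.cast_one, div_one]
      exact mul_le_mul_of_nonneg_left (by linarith [hS x, hS y]) (by linarith)
    · have h3 := hQ B k3 (k1 ▸ (Nat.pow_le_pow_right two_pos hj).trans g1)
      have h4 : (2 : ℝ) ≤ B.card := by
        rw [k1]; exact_mod_cast Nat.le_self_pow h0 2
      rw [← k1, mul_div_assoc]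
      gcongr
      rw [div_le_iff₀ (by linarith)]
      nlinarith [hS x]
  · obtain ⟨-, k2, -⟩ := g4 _ _ _ hB
    have h1 : ∑ v ∈ insert x B, duh n (torJ J L) β h (SpF n a) (Sm n v) =
        ∑ w ∈ (insert x B).map (Equiv.subRight x).toEmbedding,
          duh n (torJ J L) β h (SpF n a) (Sm n (x + w)) := by
      rw [sum_map]; simp
    rw [h1]
    refine sum_le_sum_of_subset_of_nonneg (fun w hw => ?_) fun w _ _ => hdu _
    obtain ⟨v, hv, rfl⟩ := mem_map.1 hw
    refine mem_filter.2 ⟨mem_univ _, ?_⟩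
    change tdist 0 (v - x) ≤ _
    rw [← tdist_eq]
    rcases mem_insert.1 hv with rfl | hv
    · rw [tdist_self]; exact Nat.zero_le _
    · have := tdist_triangle x i.2 v
      have := k2 v hv
      omega
  · refine (sum_near_le x jm rad _ (fun j => K ^ 2 ^ j * (K ^ 2 ^ j * r j)) _
      (fun j => mul_nonneg (by positivity) (mul_nonneg (by positivity) (hr0 j)))
      (fun j _ u => mul_le_mul_of_nonneg_left (mul_le_mul_of_nonneg_right (g2 j u) (hr0 j))
        (by positivity)) g3).trans (le_of_eq ?_)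
    rw [hσ]
    exact sum_congr rfl fun j _ => by ring
  · have h1 : ∀ j ∈ range (jm + 1), ∑ x, a x * D j x ≤
        2 ^ d * K ^ 2 ^ j * Df n (torJ J L) β h a := fun j hj => by
      simp only [D, mul_sum]
      rw [sum_comm]
      refine (sum_le_card_nsmul _ _ _ fun w _ => m7 w).trans ?_
      rw [nsmul_eq_mul]
      refine mul_le_mul_of_nonneg_right ?_ hDf
      have h2 : ((univ.filter fun w : Tor d L => tdist 0 w ≤ 2 * rad j).card : ℝ) ≤
          ((2 * (2 * rad j + 1) : ℕ) : ℝ) ^ d := by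
        exact_mod_cast (card_ball_le 0 _).trans (Nat.pow_le_pow_left (by omega) d)
      rw [Nat.cast_mul, mul_pow, Nat.cast_ofNat] at h2
      exact h2.trans (mul_le_mul_of_nonneg_left (g3 j (Nat.lt_succ_iff.1 (mem_range.1 hj)))
        (by positivity))
    calc _ ≤ ∑ x, a x * ∑ j ∈ range (jm + 1), K ^ 2 ^ j * (K ^ 2 ^ j * (r j * D j x)) :=
          sum_le_sum fun x _ => mul_le_mul_of_nonneg_left (sum_near_le x jm rad _ _ _
            (fun j => mul_nonneg (by positivity) (mul_nonneg (hr0 j) (hD0 j x)))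
            (fun j _ u => mul_le_mul_of_nonneg_right (g2 j u) (mul_nonneg (hr0 j) (hD0 j x))) g3)
            (ha x)
      _ = ∑ j ∈ range (jm + 1), (K ^ 2 ^ j) ^ 2 * r j * ∑ x, a x * D j x := by
          simp only [mul_sum]
          rw [sum_comm]
          exact sum_congr rfl fun j _ => sum_congr rfl fun x _ => by ring
      _ ≤ ∑ j ∈ range (jm + 1), (K ^ 2 ^ j) ^ 2 * r j *
            (2 ^ d * K ^ 2 ^ j * Df n (torJ J L) β h a) :=
          sum_le_sum fun j hj => mul_le_mul_of_nonneg_left (h1 j hj)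
            (mul_nonneg (by positivity) (hr0 j))
      _ = _ := by
          rw [hσ, mul_sum, sum_mul]
          exact sum_congr rfl fun j _ => by ring

end Crest.Agent.N337.FV
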