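import Crest.Agent.N337.FV.Defs
import Crest.Agent.N337.Free.Main
import Crest.Agent.N337.Mom
import Crest.Agent.N337.Basic

/-!
# Row 337, part FV: the sharp two-sided bound `FinVolStmt` (helper34)
-/

set_option autoImplicit false

namespace Crest.Agent.N337.FV

open Crest.MathPhysics.SpinModel Filter Topology

namespace Sh

/-- consequences of the moment inequalities for one mode. -/
theorem mode_real {u v m0 m2 e β ζ η N : ℝ} (hβ : 0 < β) (he : 0 < e) (hζ : 0 ≤ ζ) (hζη : ζ ≤ η)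
    (hη : η ≤ 1 / 4) (hm : 0 < v - u) (hN : v - u ≤ N) (h5 : (v - u) ^ 2 ≤ m0 * m2)
    (h7 : ∀ E : ℝ, 0 < E → u < v → m2 ≤ E * (v - u) → (v - u) / (Real.exp (β * E) - 1) ≤ u)
    (h8 : ∀ E : ℝ, 0 < E → m2 = E * (v - u) → u ≤ (v - u) / (Real.exp (β * E) - 1) +
      (m0 - (v - u) / E) * (1 + β * E + 6 * (β * E) ^ 2) / β)
    (hE : |m2 - e * (v - u)| ≤ ζ * (e * (v - u))) :
    (v - u) * (1 / (Real.exp (β * (1 + η) * e) - 1)) ≤ u ∧ 0 ≤ m0 - (v - u) * (1 - ζ) / e ∧
    ∀ A : ℝ, 1 ≤ A → β * e ≤ A → u ≤ N * (1 / (Real.exp (β * (1 - η) * e) - 1)) +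
      27 * A ^ 2 / β * (m0 - (v - u) * (1 - ζ) / e) := by
  set m := v - u with hmd
  obtain ⟨E, hEm⟩ : ∃ E, m2 = E * m := ⟨m2 / m, by field_simp⟩
  have hem : 0 < e * m := mul_pos he hm
  obtain ⟨k1, k2⟩ := abs_le.1 hE
  have a1 : (1 - ζ) * e ≤ E := le_of_mul_le_mul_right (by rw [← hEm]; linarith) hm
  have a2 : E ≤ (1 + ζ) * e := le_of_mul_le_mul_right (by rw [← hEm]; linarith) hm
  have hE0 : 0 < E := lt_of_lt_of_le (mul_pos (by linarith) he) a1
  have a3 : m / E ≤ m0 := by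
    rw [div_le_iff₀ hE0]
    refine le_of_mul_le_mul_right ?_ hm
    rw [hEm] at h5; linarith
  have a4 : m * (1 - ζ) / e ≤ m / E := by
    rw [div_le_div_iff₀ he hE0, mul_assoc]
    refine mul_le_mul_of_nonneg_left ?_ hm.le
    have := mul_le_mul_of_nonneg_left a2 (by linarith : 0 ≤ 1 - ζ)
    nlinarith [mul_nonneg (sq_nonneg ζ) he.le]
  refine ⟨?_, by linarith, fun A hA hlow => (h8 E hE0 hEm).trans (add_le_add ?_ ?_)⟩
  · rw [mul_one_div, mul_assoc]
    refine h7 _ (mul_pos (by linarith) he) (by linarith) ?_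
    nlinarith [mul_le_mul_of_nonneg_right hζη hem.le]
  · have b1 : 0 < β * (1 - η) * e := mul_pos (mul_pos hβ (by linarith)) he
    have b2 : 0 < Real.exp (β * (1 - η) * e) - 1 := sub_pos.2 (Real.one_lt_exp_iff.2 b1)
    have b3 : β * (1 - η) * e ≤ β * E := by
      rw [mul_assoc]
      exact mul_le_mul_of_nonneg_left ((mul_le_mul_of_nonneg_right (by linarith) he.le).trans a1) hβ.le
    rw [mul_one_div]
    exact div_le_div₀ (hm.le.trans hN) hN b2 (by gcongr)
  · have b1 : β * E ≤ 2 * A := by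
      have := mul_le_mul_of_nonneg_left a2 hβ.le
      nlinarith [mul_pos hβ he]
    have b2 : 0 < β * E := mul_pos hβ hE0
    have b3 : 1 + β * E + 6 * (β * E) ^ 2 ≤ 27 * A ^ 2 := by nlinarith
    rw [div_mul_eq_mul_div, mul_comm (27 * A ^ 2)]
    gcongr
    linarith

variable {d L : ℕ} [NeZero L] {n : ℕ} {J : (Fin d → ℤ) → ℝ}

/-- the unit mass at the origin. -/
noncomputable def dl : Tor d L → ℝ := fun x => if x = 0 then 1 else 0

omit [NeZero L] in
theorem dl_nonneg (x : Tor d L) : 0 ≤ dl x := by unfold dl; split_ifs <;> norm_num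
theorem SpF_dl : SpF n (dl : Tor d L → ℝ) = Sp n 0 := by simp [SpF, dl, apply_ite]
theorem SmF_dl : SmF n (dl : Tor d L → ℝ) = Sm n 0 := by simp [SmF, dl, apply_ite]
theorem hat2_dl (k : Tor d L) : hat2 dl k = 1 := by simp [hat2, dl, apply_ite]
theorem sum_dl_sq : ∑ x : Tor d L, dl x ^ 2 = 1 := by simp [dl]
theorem conv_dl (f : Tor d L → ℝ) : (fun x => ∑ y, ker f (x - y) * dl y) = ker f := by
  funext x; simp [dl]
theorem ker_zero (f : Tor d L → ℝ) : ker f 0 = (∑ k, f k) / (L : ℝ) ^ d := by simp [ker]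
theorem Qf_dl (β h : ℝ) : Qf n (torJ J L) β h dl = rS n J L β h := by
  rw [Qf, SpF_dl, SmF_dl, rS]

/-- `n ρ ≤ r + e² r²`. -/
theorem n_rho_le (hN : NewtonStmt) (hn : 1 ≤ n) (hF : Ferro (torJ J L)) {β : ℝ} (hβ : 0 < β)
    (h : ℝ) : n * rho n J L β h ≤ rS n J L β h + Real.exp 1 ^ 2 * rS n J L β h ^ 2 := by
  have h1 := hN _ n _ β h hn hF hβ dl dl dl_nonneg dl_nonneg 2 (by norm_num)
  rw [SpF_dl, SmF_dl] at h1
  have h2 := ev_mono h hF hβ.le (pos_Sm2Sp2_sub (n := n) (0 : Tor d L))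
  have h3 : Sm n (0 : Tor d L) * Sp n 0 = ((n : ℝ) : ℂ) • num n 0 - num n 0 * (num n 0 - 1) := by
    rw [Sm_mul_Sp]
    simp only [Matrix.mul_sub, Matrix.mul_add, Matrix.mul_smul, Matrix.mul_one, Complex.ofReal_add, add_smul,
      Complex.ofReal_one, one_smul]
    abel
  have h4 : rS n J L β h = n * rho n J L β h - ev n (torJ J L) β h (num n 0 * (num n 0 - 1)) := by
    rw [rS, h3, ev_sub, ev_smul, rho]
  have h5 : ((2 : ℕ).factorial : ℝ) ^ 2 * (Real.exp 1 * rS n J L β h / (2 : ℕ)) ^ 2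
      = Real.exp 1 ^ 2 * rS n J L β h ^ 2 := by
    generalize Real.exp 1 = E; norm_num [Nat.factorial]; ring
  change _ ≤ _ * (_ * rS n J L β h / _) ^ 2 at h1
  linarith

theorem exp_le_pow : ∃ X : ℝ, 0 ≤ X ∧ ∀ s : ℝ, 0 < s →
    Real.exp (-((s ^ 2)⁻¹ / 2)) ≤ X * s ^ 230 := by
  refine ⟨(Nat.factorial 115 : ℝ) * 2 ^ 115, by positivity, fun s hs => ?_⟩
  have h1 := Real.pow_div_factorial_le_exp ((s ^ 2)⁻¹ / 2) (by positivity) 115
  rw [Real.exp_neg, inv_le_comm₀ (Real.exp_pos _) (by positivity)]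
  refine le_trans (le_of_eq ?_) h1
  generalize (Nat.factorial 115 : ℝ) = F
  field_simp

theorem coef_le {N K δ ρ : ℝ} (hN : 1 ≤ N) (h0 : 0 ≤ ρ) (h1 : ρ ≤ K * δ) :
    (1 + K * δ) * N - (N - 2 * ρ) * (1 - 8 * K * δ) ≤ 11 * N * K * δ := by
  nlinarith [mul_nonneg h0 (h0.trans h1), mul_le_mul_of_nonneg_right hN (h0.trans h1)]

theorem le_four_mul {D κ : ℝ} (hD : 0 ≤ D) (h : 1 / 2 ≤ κ) : D ≤ 4 * (κ ^ 2 * D) := by
  nlinarith [mul_nonneg hD (show 0 ≤ 4 * κ ^ 2 - 1 by nlinarith)]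

theorem rpow_eq {β : ℝ} (hβ : 0 < β) (k : ℕ) {q : ℝ} (h : q = -(1 / 80) * k) :
    β ^ q = (β ^ (-(1 / 80) : ℝ)) ^ k := by
  rw [← Real.rpow_natCast, ← Real.rpow_mul hβ.le, h]

end Sh

set_option maxHeartbeats 800000 in
open Sh in
theorem finVol (hM : ModeStmt) (hH : HighStmt) (hB : BootStmt) (hN : NewtonStmt) : FinVolStmt := by
  intro d n J hd hn hJ
  obtain ⟨LM, hM⟩ := hM d n J hd hn hJ
  obtain ⟨C, LH, hC, hH⟩ := hH d n J hd hn hJ
  obtain ⟨K, β0, hK, hβ0, hB⟩ := hB d n J hd hn hJ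
  obtain ⟨F, LF, hF, hFr⟩ := free d n J hd hn hJ
  obtain ⟨X, hX0, hX⟩ := exp_le_pow
  have hn1 : (1 : ℝ) ≤ n := by exact_mod_cast hn
  obtain ⟨c, hc⟩ : ∃ c : ℝ, c = Real.exp 1 ^ 2 * K ^ 2 + C * K ^ 2 * (2 * F + K)
    + C * X + 27 * (4 * (11 * n * K * (2 * F))) := ⟨_, rfl⟩
  have hc0 : 0 ≤ c := by rw [hc]; positivity
  refine ⟨max β0 ((c + 8 * K) ^ 80), lt_max_of_lt_left hβ0, fun β hβ h hh => ?_⟩
  have hβ1 : 1 < β := hβ0.trans_le ((le_max_left _ _).trans hβ)
  have hβp : 0 < β := by linarith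
  obtain ⟨LB, hB⟩ := hB β ((le_max_left _ _).trans hβ) h hh
  obtain ⟨s, hs⟩ : ∃ s : ℝ, s = β ^ (-(1 / 80) : ℝ) := ⟨_, rfl⟩
  have hs0 : 0 < s := hs ▸ Real.rpow_pos_of_pos hβp _
  have e80 : β * s ^ 80 = 1 := by
    rw [hs, ← rpow_eq hβp 80 (q := -1) (by norm_num), Real.rpow_neg_one, mul_inv_cancel₀ hβp.ne']
  have e115 : β ^ (-(23 / 16 : ℝ)) = s ^ 115 := hs ▸ rpow_eq hβp 115 (by norm_num)
  have e100 : β ^ (-(5 / 4 : ℝ)) = s ^ 100 := hs ▸ rpow_eq hβp 100 (by norm_num)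
  have e220 : β ^ (-(11 / 4 : ℝ)) = s ^ 220 := hs ▸ rpow_eq hβp 220 (by norm_num)
  clear hs
  have hcs : (c + 8 * K) * s ≤ 1 := by
    refine (pow_le_one_iff_of_nonneg (by positivity) (by norm_num : (80 : ℕ) ≠ 0)).1 ?_
    rw [mul_pow, ← e80]
    exact mul_le_mul_of_nonneg_right ((le_max_right _ _).trans hβ) (by positivity)
  have hKs : 8 * K * s ≤ 1 := by nlinarith
  have hcs' : c * s ≤ 1 := by nlinarith
  have hs8 : s ≤ 1 / 8 := by nlinarith
  have hs1 : s ≤ 1 := by linarith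
  have pw : ∀ a b : ℕ, a ≤ b → s ^ b ≤ s ^ a := fun a b hab => pow_le_pow_of_le_one hs0.le hs1 hab
  obtain ⟨L1, hL1⟩ := exists_nat_ge (max (s ^ 78)⁻¹ (h * s ^ 39)⁻¹)
  refine ⟨max (max LM LH) (max (max LB LF) L1), fun L _ hL => ?_⟩
  simp only [max_le_iff] at hL
  obtain ⟨⟨l1, l2⟩, ⟨l3, l4⟩, l5⟩ := hL
  obtain ⟨-, -, -, ⟨r0, r1, r2⟩, hk, ha⟩ := hM L l1 β h hβp
  obtain ⟨hr, hD⟩ := hB L l3
  obtain ⟨hFe, hε, -, hker⟩ := hFr L l4
  have hV : (0 : ℝ) < (L : ℝ) ^ d := Free.vol_pos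
  have hLV : (L1 : ℝ) ≤ (L : ℝ) ^ d := by
    have h1 : (1 : ℝ) ≤ L := by exact_mod_cast NeZero.pos L
    exact (Nat.cast_le.2 l5).trans (le_self_pow₀ h1 (by omega))
  have hV1 : (s ^ 78)⁻¹ ≤ (L : ℝ) ^ d := ((le_max_left _ _).trans hL1).trans hLV
  have hV2 : (h * s ^ 39)⁻¹ ≤ (L : ℝ) ^ d := ((le_max_right _ _).trans hL1).trans hLV
  rw [e115] at hr hD
  intro ρ η
  have hρ : ρ = rho n J L β h := rfl
  have hη : η = s ^ 100 := e100
  clear_value ρ η
  subst hρ hη
  rw [e220]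
  set ρ := rho n J L β h
  set r := rS n J L β h
  set V := (L : ℝ) ^ d
  set ζ := 8 * K * s ^ 115 with hζ
  have z0 : 0 ≤ ζ := by positivity
  have z1 : ζ ≤ s ^ 100 := by
    have := mul_le_mul_of_nonneg_right hKs (pow_pos hs0 114).le
    calc ζ = 8 * K * s * s ^ 114 := by rw [hζ]; ring
      _ ≤ _ := by linarith [pw 100 114 (by norm_num)]
  have z2 : s ^ 100 ≤ 1 / 8 := by simpa using (pw 1 100 (by norm_num)).trans (by simpa using hs8)
  have z3 : 8 * r ≤ ζ := by rw [hζ]; linarith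
  have m0 : 1 / 2 ≤ n - 2 * ρ := by linarith
  -- the modes
  have hmode := fun k : Tor d L => by
    obtain ⟨-, -, -, -, q5, -, q7, q8⟩ := momStmt _ (hamF n (torJ J L) h) (Bk n k) β
      (hamF_herm _ h) hβp
    have he : 0 < epsT n J k + h := by linarith [hε k]
    exact mode_real (u := uk n J β h k) (v := vk n J β h k) (m0 := m0k n J β h k)
      (m2 := m2k n J β h k) (N := n) hβp he z0 z1 (by linarith) (by rw [(hk k).2.1]; linarith)
      (by rw [(hk k).2.1]; linarith) q5 q7 q8 ((hk k).2.2.trans (by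
        rw [(hk k).2.1]
        have a1 : epsT n J k ≤ (epsT n J k + h) * (2 * (n - 2 * ρ)) :=
          (le_add_of_nonneg_right hh.le).trans (le_mul_of_one_le_right he.le (by linarith))
        have a2 := mul_le_mul_of_nonneg_left a1 (by linarith : 0 ≤ 4 * r)
        have a3 := mul_le_mul_of_nonneg_right z3
          (mul_nonneg he.le (by linarith : 0 ≤ n - 2 * ρ))
        linarith))
  simp only [fun k => (hk k).2.1] at hmode
  have hQ : r = (∑ k : Tor d L, uk n J β h k) / V := by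
    simpa only [Qf_dl, hat2_dl, one_mul] using (ha dl).2.1
  have hT : ∀ b : ℝ, 0 < b → ∀ k : Tor d L, 0 ≤ 1 / (Real.exp (b * (epsT n J k + h)) - 1) :=
    fun b hb k => (one_div_pos.2 (sub_pos.2 (Real.one_lt_exp_iff.2
      (mul_pos hb (by linarith [hε k]))))).le
  refine ⟨by linarith, ?_, ?_⟩
  · have a1 : (n - 2 * ρ) * nTor n J L (β * (1 + s ^ 100)) h ≤ r := by
      rw [hQ, nTor, ← mul_div_assoc, Finset.mul_sum]
      exact div_le_div_of_nonneg_right (Finset.sum_le_sum fun k _ => (hmode k).1) hV.le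
    have a2 : 0 ≤ nTor n J L (β * (1 + s ^ 100)) h :=
      div_nonneg (Finset.sum_nonneg fun k _ => hT _ (by positivity) k) hV.le
    refine le_of_mul_le_mul_left ?_ (by linarith : (0 : ℝ) < n)
    have a3 : n * (1 - s ^ 100) ≤ n - 2 * ρ := by nlinarith [pow_pos hs0 100]
    have a4 := mul_le_mul_of_nonneg_right a3 a2
    linarith
  · -- the upper bound
    have eA : (s ^ 2)⁻¹ / β = s ^ 78 := by
      rw [div_eq_iff hβp.ne', inv_eq_iff_eq_inv]
      exact eq_inv_of_mul_eq_one_left (by rw [← e80]; ring)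
    have hA : 1 ≤ (s ^ 2)⁻¹ := one_le_inv₀ (by positivity) |>.2 (pow_le_one₀ hs0.le hs1)
    have hμ : 0 < s ^ 78 := by positivity
    obtain ⟨g0, g1, g2⟩ := hker _ hμ
    have t0 : max 1 (tdist (0 : Tor d L) 0 : ℝ) = 1 := by simp [Free.tdist_self]
    -- high modes
    have hi := hH L l2 β h _ hβp hh hA dl dl_nonneg
    simp only [hat2_dl, one_mul, sum_dl_sq, mul_one, Qf_dl, eA, gform] at hi
    have b1 : (∑ k : Tor d L, 1 / (epsT n J k + s ^ 78)) / V ≤ 2 * F := by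
      have := g1 0
      rw [ker_zero, t0, div_one] at this
      have b : F / (s ^ 78 * V) ≤ F := div_le_self (by linarith) (by
        rwa [inv_le_iff_one_le_mul₀' hμ] at hV1)
      linarith
    have b2 : r / s ^ 78 ≤ K := by
      rw [div_le_iff₀ hμ]
      exact hr.trans (mul_le_mul_of_nonneg_left (pw 78 115 (by norm_num)) (by linarith))
    have b3 : r ^ 2 ≤ K ^ 2 * s ^ 230 :=
      (pow_le_pow_left₀ (r0.trans r1) hr 2).trans_eq (by ring)
    have hi' : (∑ k ∈ Finset.univ.filter (fun k : Tor d L => (s ^ 2)⁻¹ ≤ β * (epsT n J k + h)),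
        uk n J β h k) / V ≤ (C * K ^ 2 * (2 * F + K) + C * X)
          * s ^ 230 := by
      refine hi.trans ?_
      have b4 : 0 ≤ (∑ k : Tor d L, 1 / (epsT n J k + s ^ 78)) / V + r / s ^ 78 :=
        add_nonneg (div_nonneg (Finset.sum_nonneg fun k _ => by have := hε k; positivity) hV.le)
          (div_nonneg (r0.trans r1) hμ.le)
      have b5 := mul_le_mul (mul_le_mul_of_nonneg_left b3 (by linarith : 0 ≤ C))
        (add_le_add b1 b2) b4 (by positivity)
      have b6 := mul_le_mul_of_nonneg_left (hX s hs0) (by linarith : 0 ≤ C)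
      linarith
    -- low modes
    set κ : Tor d L → ℝ := fun k => s ^ 78 / (s ^ 78 + epsT n J k) with hκ
    set D : Tor d L → ℝ := fun k => m0k n J β h k - (n - 2 * ρ) * (1 - ζ) / (epsT n J k + h)
      with hDd
    have c1 : ∀ x, 0 ≤ ker κ x := fun x => by
      have : ker κ x = s ^ 78 * ker (fun k => 1 / (epsT n J k + s ^ 78)) x := by
        rw [ker, ker, ← mul_div_assoc, Finset.mul_sum]
        refine congrArg (· / (L : ℝ) ^ d) (Finset.sum_congr rfl fun k _ => ?_)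
        rw [hκ, ← mul_assoc, mul_one_div, add_comm (epsT n J k)]
      rw [this]; exact mul_nonneg hμ.le (g0 x)
    have c2 : ∀ k, hat2 (ker κ) k = κ k ^ 2 := fun k => by
      have := ((ha dl).2.2.2.2 κ fun k => by simp only [hκ, Free.epsT_neg hJ]).1 k
      rwa [conv_dl, hat2_dl, mul_one] at this
    set G := (∑ k : Tor d L, κ k ^ 2 / (epsT n J k + h)) / V with hG
    have c3 : G ≤ 2 * F * s ^ 39 := by
      have := g2 h hh 0
      rw [ker_zero, show s ^ 78 = (s ^ 39) ^ 2 by ring, Real.sqrt_sq (by positivity),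
        show (s ^ 39) ^ 2 = s ^ 78 by ring] at this
      have b : F / (h * V) ≤ F * s ^ 39 := by
        rw [div_le_iff₀ (by positivity), mul_assoc]
        refine le_mul_of_one_le_right (by linarith) ?_
        rw [inv_le_iff_one_le_mul₀' (by positivity)] at hV2
        linarith
      linarith [min_le_left (F * s ^ 39) (F / max 1 (tdist (0 : Tor d L) 0 : ℝ))]
    have c4 : 0 ≤ G := div_nonneg (Finset.sum_nonneg fun k _ => by
      have := hε k; positivity) hV.le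
    have c5 : (∑ k, κ k ^ 2 * D k) / V ≤ 11 * n * K * (2 * F) * s ^ 154 := by
      have d1 := hD _ c1
      rw [(ha _).2.2.1, gform] at d1
      simp only [c2] at d1
      have d2 : (∑ k, κ k ^ 2 * D k) / V = (∑ k, κ k ^ 2 * m0k n J β h k) / V
          - (n - 2 * ρ) * (1 - ζ) * G := by
        rw [hG, ← mul_div_assoc, ← sub_div, Finset.mul_sum, ← Finset.sum_sub_distrib]
        congr 1
        exact Finset.sum_congr rfl fun k _ => by simp only [hDd]; ring
      have d3 : (1 + K * s ^ 115) * n - (n - 2 * ρ) * (1 - ζ) ≤ 11 * n * K * s ^ 115 :=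
        coef_le hn1 r0 (r1.trans hr)
      have d4 := mul_le_mul d3 c3 c4 (by positivity)
      rw [d2]
      calc _ ≤ ((1 + K * s ^ 115) * n - (n - 2 * ρ) * (1 - ζ)) * G := by linarith
        _ ≤ _ := d4.trans_eq (by ring)
    have eB : 27 * (s ^ 2)⁻¹ ^ 2 / β = 27 * s ^ 76 := by
      rw [sq, ← mul_assoc, mul_div_assoc, eA]; field_simp
    have lo : (∑ k ∈ Finset.univ.filter (fun k : Tor d L => ¬(s ^ 2)⁻¹ ≤ β * (epsT n J k + h)),
        uk n J β h k) / V ≤ n * nTor n J L (β * (1 - s ^ 100)) h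
          + 27 * (4 * (11 * n * K * (2 * F))) * s ^ 230 := by
      have d1 : ∑ k ∈ Finset.univ.filter (fun k : Tor d L => ¬(s ^ 2)⁻¹ ≤ β * (epsT n J k + h)),
          uk n J β h k ≤ ∑ k : Tor d L, (n * (1 / (Real.exp (β * (1 - s ^ 100)
            * (epsT n J k + h)) - 1)) + 27 * s ^ 76 * (4 * (κ k ^ 2 * D k))) := by
        refine (Finset.sum_le_sum fun k hk' => ?_).trans (Finset.sum_le_sum_of_subset_of_nonneg
          (Finset.subset_univ _) fun k _ _ => ?_)
        · have hk2 := not_le.1 (Finset.mem_filter.1 hk').2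
          refine ((hmode k).2.2 _ hA hk2.le).trans (add_le_add le_rfl ?_)
          rw [eB]
          refine mul_le_mul_of_nonneg_left ?_ (by positivity)
          have f1 : epsT n J k + h < s ^ 78 := by rwa [← eA, lt_div_iff₀' hβp]
          have f2 : 1 / 2 ≤ κ k := by
            rw [hκ, le_div_iff₀ (by linarith [hε k])]; linarith
          exact le_four_mul (hmode k).2.1 f2
        · have f3 : 0 ≤ D k := (hmode k).2.1
          exact add_nonneg (mul_nonneg (Nat.cast_nonneg n) (hT _ (mul_pos hβp (by linarith)) k))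
            (mul_nonneg (by positivity) (mul_nonneg zero_le_four (mul_nonneg (sq_nonneg _) f3)))
      refine (div_le_div_of_nonneg_right d1 hV.le).trans ?_
      rw [Finset.sum_add_distrib, ← Finset.mul_sum, ← Finset.mul_sum, ← Finset.mul_sum, add_div,
        mul_div_assoc, mul_div_assoc, mul_div_assoc, nTor]
      have := mul_le_mul_of_nonneg_left c5 (by positivity : 0 ≤ 27 * s ^ 76 * 4)
      refine add_le_add le_rfl ?_
      calc _ = 27 * s ^ 76 * 4 * ((∑ k, κ k ^ 2 * D k) / V) := by ring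
        _ ≤ _ := this.trans_eq (by ring)
    have tot : r ≤ n * nTor n J L (β * (1 - s ^ 100)) h + (C * K ^ 2 * (2 * F + K)
        + C * X + 27 * (4 * (11 * n * K * (2 * F)))) * s ^ 230 := by
      rw [hQ, ← Finset.sum_filter_add_sum_filter_not Finset.univ
        (fun k : Tor d L => (s ^ 2)⁻¹ ≤ β * (epsT n J k + h)), add_div]
      linarith
    have f1 := n_rho_le hN hn hFe hβp h
    have f2 := mul_le_mul_of_nonneg_left b3 (sq_nonneg (Real.exp 1))
    have f3 : n * ρ ≤ n * nTor n J L (β * (1 - s ^ 100)) h + c * s ^ 230 := by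
      rw [hc]; linarith
    have f4 : c * s ^ 230 ≤ n * s ^ 220 := by
      have g3 := mul_le_mul_of_nonneg_right hcs' (pow_pos hs0 229).le
      have g4 := le_mul_of_one_le_left (pow_pos hs0 220).le hn1
      calc _ = c * s * s ^ 229 := by ring
        _ ≤ _ := by linarith [pw 220 229 (by norm_num)]
    refine le_of_mul_le_mul_left ?_ (by linarith : (0 : ℝ) < n)
    linarith

end Crest.Agent.N337.FV
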