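import Crest.Agent.N337.FV.Defs
import Crest.Agent.N337.Basic
import Crest.Agent.N337.Mom
import Crest.Agent.N337.Free.Main

/-!
# Row 337, part FV: tools for the bootstrap (helper35)

`boot_abs` (continuity argument), `uk_low` (low modes), `pair_le` (kernel sums on sparse sets),
`Q_le` (the splitting of `Qf` into low and high modes).
-/

set_option autoImplicit false

namespace Crest.Agent.N337.FV.Bt

open Crest.MathPhysics.SpinModel Filter Topology Finset Crest.Agent.N337.Free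

/-- the continuity argument on `[h, ∞)`. -/
theorem boot_abs {ι : Type} [Finite ι] (f : ι → ℝ → ℝ) (c : ι → ℝ) (hf : ∀ i, Continuous (f i))
    {h H : ℝ} (hH : h ≤ H) (h0 : ∀ i, f i H ≤ c i)
    (himp : ∀ x, h ≤ x → (∀ i, f i x ≤ c i) → ∀ i, f i x < c i) : ∀ i, f i h ≤ c i := by
  have hU : IsOpen (⋂ i, {x | f i x < c i}) :=
    isOpen_iInter_of_finite fun i => isOpen_lt (hf i) continuous_const
  have hF : IsClosed (⋂ i, {x | f i x ≤ c i}) :=
    isClosed_iInter fun i => isClosed_le (hf i) continuous_const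
  have hsub : closure (⋂ i, {x | f i x < c i}) ⊆ ⋂ i, {x | f i x ≤ c i} :=
    closure_minimal (Set.iInter_mono fun i x hx => le_of_lt (show f i x < c i from hx)) hF
  have key := (isPreconnected_Ici (a := h)).subset_of_closure_inter_subset hU
    ⟨H, hH, Set.mem_iInter.2 (himp H hH h0)⟩
    (fun x hx => Set.mem_iInter.2 (himp x hx.2 (Set.mem_iInter.1 (hsub hx.1))))
  exact fun i => le_of_lt (Set.mem_iInter.1 (key (Set.self_mem_Ici)) i)

theorem low_real {u v m0 m2 β A e h r : ℝ} (hβ : 0 < β) (hA : 1 ≤ A) (hh : 0 < h) (he : 0 ≤ e)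
    (hlow : β * (e + h) ≤ A) (hr : r ≤ 1 / 8) (hvu : 1 / 2 ≤ v - u)
    (hm2 : |m2 - (e + h) * (v - u)| ≤ 4 * r * e) (h5 : (v - u) ^ 2 ≤ m0 * m2)
    (h8 : ∀ E : ℝ, 0 < E → m2 = E * (v - u) → u ≤ (v - u) / (Real.exp (β * E) - 1) +
      (m0 - (v - u) / E) * (1 + β * E + 6 * (β * E) ^ 2) / β) :
    u ≤ 27 * A ^ 2 / β * m0 := by
  set w := v - u with hw
  have hw0 : 0 < w := by linarith
  obtain ⟨h1, h2⟩ := abs_le.1 hm2
  have h3 : 4 * r * e ≤ e * w := by nlinarith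
  have hm0 : 0 < m2 := by nlinarith
  set E := m2 / w with hE
  have hE0 : 0 < E := div_pos hm0 hw0
  have hmE : m2 = E * w := by rw [hE]; field_simp
  have hE2 : E ≤ 2 * (e + h) := by
    rw [hE, div_le_iff₀ hw0]; nlinarith
  have hx0 : 0 < β * E := mul_pos hβ hE0
  have hx : β * E ≤ 2 * A := by nlinarith
  have h6 : w / E ≤ m0 := by
    rw [div_le_iff₀ hE0]
    rw [hmE] at h5
    nlinarith
  have h7 : w / (Real.exp (β * E) - 1) ≤ w / E / β := by
    rw [div_div, mul_comm E]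
    exact div_le_div_of_nonneg_left hw0.le hx0 (by linarith [Real.add_one_le_exp (β * E)])
  have hwE : 0 ≤ w / E := (div_pos hw0 hE0).le
  have hP : 1 + β * E + 6 * (β * E) ^ 2 ≤ 27 * A ^ 2 := by nlinarith
  have hA2 : 1 ≤ 27 * A ^ 2 := by nlinarith
  have h9 := h8 E hE0 hmE
  have h10 : (m0 - w / E) * (1 + β * E + 6 * (β * E) ^ 2) / β ≤ (m0 - w / E) * (27 * A ^ 2) / β := by
    gcongr
  have h11 : w / E / β ≤ w / E * (27 * A ^ 2) / β := by
    gcongr
    nlinarith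
  calc u ≤ w / E * (27 * A ^ 2) / β + (m0 - w / E) * (27 * A ^ 2) / β := by linarith
    _ = 27 * A ^ 2 / β * m0 := by ring

variable {d L : ℕ} [NeZero L] {n : ℕ} {J : (Fin d → ℤ) → ℝ}

theorem uk_nonneg (β h : ℝ) (k : Tor d L) : 0 ≤ uk n J β h k := ev_star_nonneg _ _ _ _

theorem m0k_nonneg {β : ℝ} (hβ : 0 ≤ β) (h : ℝ) (k : Tor d L) : 0 ≤ m0k n J β h k :=
  duh_star_nonneg _ _ hβ _

theorem hat2_nonneg (a : Tor d L → ℝ) (k : Tor d L) : 0 ≤ hat2 a k := sq_nonneg _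

/-- low modes: `u_k ≤ 27 A² m₀(k) / β`. -/
theorem uk_low {β h A r : ℝ} (hβ : 0 < β) (hA : 1 ≤ A) (hh : 0 < h) (k : Tor d L)
    (he : 0 ≤ epsT n J k) (hlow : β * (epsT n J k + h) ≤ A) (hr : r ≤ 1 / 8)
    (hvu : 1 / 2 ≤ vk n J β h k - uk n J β h k)
    (hm2 : |m2k n J β h k - (epsT n J k + h) * (vk n J β h k - uk n J β h k)| ≤
      4 * r * epsT n J k) :
    uk n J β h k ≤ 27 * A ^ 2 / β * m0k n J β h k := by
  obtain ⟨-, -, -, -, h5, -, -, h8⟩ :=
    momStmt _ (hamF n (torJ J L) h) (Bk n k) β (hamF_herm _ _) hβ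
  exact low_real hβ hA hh he hlow hr hvu hm2 h5 h8

omit [NeZero L] in
theorem ind_nonneg (B : Finset (Tor d L)) (x : Tor d L) : 0 ≤ ind B x := by
  unfold ind; split_ifs <;> norm_num

theorem sum_ind_mul (B : Finset (Tor d L)) (g : Tor d L → ℝ) :
    ∑ x, ind B x * g x = ∑ x ∈ B, g x := by
  simp [ind, Finset.sum_ite_mem]

theorem sum_ind_sq (B : Finset (Tor d L)) : ∑ x, ind B x ^ 2 = B.card := by
  simp [ind, Finset.sum_ite_mem]

theorem hat2_ind_le (B : Finset (Tor d L)) (k : Tor d L) : hat2 (ind B) k ≤ (B.card : ℝ) ^ 2 := by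
  unfold hat2
  gcongr
  refine (norm_sum_le _ _).trans (le_of_eq ?_)
  have : ∀ x, ‖((ind B x : ℝ) : ℂ) * chi k x‖ = ind B x * 1 := fun x => by
    rw [norm_mul, norm_chi, Complex.norm_real, Real.norm_of_nonneg (ind_nonneg B x)]
  simp only [this, sum_ind_mul]
  simp

theorem hat2_ind_zero (k : Tor d L) : hat2 (ind {0}) k = 1 := by
  simp [hat2, ind, apply_ite]

theorem Qf_ind_zero (β h : ℝ) : Qf n (torJ J L) β h (ind {0}) = rS n J L β h := by
  simp [Qf, rS, SmF, SpF, ind, apply_ite, ite_smul]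

/-- kernel sums over sparse sets. -/
theorem pair_le {g : Tor d L → ℝ} (hg : ∀ x, g (-x) = g x) {a C K K' c : ℝ} (hC : 0 ≤ C)
    (h0 : g 0 ≤ a + c) (h1 : ∀ x, g x ≤ C / max 1 (tdist 0 x : ℝ) + c)
    {B : Finset (Tor d L)} (hB : Sparse K B) (hcard : B.card * c ≤ K') :
    ∑ x, ∑ y, ind B x * g (x - y) * ind B y ≤ B.card * (a + C * K + K') := by
  have e : ∀ x, ∑ y, ind B x * g (x - y) * ind B y = ind B x * ∑ y ∈ B, g (x - y) := fun x => by
    rw [← sum_ind_mul B, Finset.mul_sum]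
    exact Finset.sum_congr rfl fun y _ => by ring
  simp only [e, sum_ind_mul]
  rw [← nsmul_eq_mul, ← Finset.sum_const]
  refine Finset.sum_le_sum fun x hx => ?_
  rw [← Finset.add_sum_erase _ _ hx, sub_self]
  have h2 : ∑ y ∈ B.erase x, g (x - y) ≤ ∑ y ∈ B.erase x, (C * (1 / (tdist x y : ℝ)) + c) := by
    refine Finset.sum_le_sum fun y hy => ?_
    have hne : tdist x y ≠ 0 := fun h => (Finset.mem_erase.1 hy).1 (tdist_eq_zero.1 h).symm
    have h3 : (1 : ℝ) ≤ tdist x y := by exact_mod_cast Nat.one_le_iff_ne_zero.2 hne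
    have h4 := h1 (y - x)
    rw [← tdist_eq, max_eq_right h3, ← hg, neg_sub] at h4
    rwa [mul_one_div]
  rw [Finset.sum_add_distrib, ← Finset.mul_sum, Finset.sum_const, nsmul_eq_mul,
    Finset.card_erase_of_mem hx] at h2
  have h3 : ((B.card - 1 : ℕ) : ℝ) = B.card - 1 := by
    rw [Nat.cast_sub (Finset.card_pos.2 ⟨x, hx⟩), Nat.cast_one]
  rw [h3] at h2
  have h4 := mul_le_mul_of_nonneg_left (hB x hx) hC
  nlinarith

theorem ker_mul (c : ℝ) (f : Tor d L → ℝ) (x : Tor d L) :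
    ker (fun k => c * f k) x = c * ker f x := by
  simp only [ker, Finset.mul_sum, mul_div_assoc', mul_assoc]

/-- splitting of `Qf` into low and high modes. -/
theorem Q_le (hJ : Coup J) {β h A C : ℝ} (hβ : 0 < β) (hh : 0 < h) (hA : 1 ≤ A)
    (hu : ∀ k : Tor d L, β * (epsT n J k + h) ≤ A → uk n J β h k ≤ 27 * A ^ 2 / β * m0k n J β h k)
    (hQ : ∀ a : Tor d L → ℝ,
      Qf n (torJ J L) β h a = (∑ k : Tor d L, hat2 a k * uk n J β h k) / (L : ℝ) ^ d)
    (hD : ∀ a : Tor d L → ℝ,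
      Df n (torJ J L) β h a = (∑ k : Tor d L, hat2 a k * m0k n J β h k) / (L : ℝ) ^ d)
    (hc : ∀ a f : Tor d L → ℝ, (∀ k, f (-k) = f k) →
      (∀ k, hat2 (fun x => ∑ y, ker f (x - y) * a y) k = f k ^ 2 * hat2 a k) ∧
      (∑ k : Tor d L, f k * hat2 a k) / (L : ℝ) ^ d = ∑ x, ∑ y, a x * ker f (x - y) * a y)
    (hG : ∀ x : Tor d L, 0 ≤ ker (fun k => 1 / (epsT n J k + A / β)) x)
    (hIR : ∀ a : Tor d L → ℝ, (∀ x, 0 ≤ a x) → Df n (torJ J L) β h a ≤ 2 * n * gform n J h a)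
    (hsm : C * rS n J L β h ^ 2 / (A / β) ≤ 1 / 2) (a : Tor d L → ℝ) (ha : ∀ x, 0 ≤ a x)
    (hH : (∑ k ∈ Finset.univ.filter (fun k : Tor d L => A ≤ β * (epsT n J k + h)),
            hat2 a k * uk n J β h k) / (L : ℝ) ^ d ≤
          C * rS n J L β h ^ 2 * (gform n J (A / β) a + Qf n (torJ J L) β h a / (A / β)) +
            C * Real.exp (-(A / 2)) * ∑ x, a x ^ 2) :
    Qf n (torJ J L) β h a ≤ 2 * (216 * n * (A ^ 2 / β) * (∑ x, ∑ y, a x *
        ker (fun k => (A / β / (A / β + epsT n J k)) ^ 2 / (epsT n J k + h)) (x - y) * a y) +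
      C * rS n J L β h ^ 2 *
        (∑ x, ∑ y, a x * ker (fun k => 1 / (epsT n J k + A / β)) (x - y) * a y) +
      C * Real.exp (-(A / 2)) * ∑ x, a x ^ 2) := by
  set μ := A / β with hμ
  have hμ0 : 0 < μ := div_pos (by linarith) hβ
  have hV : (0 : ℝ) < (L : ℝ) ^ d := vol_pos
  have he : ∀ k : Tor d L, 0 ≤ epsT n J k := fun k => eps_nonneg hJ n _
  set κ : Tor d L → ℝ := fun k => μ / (μ + epsT n J k) with hκ
  have hκn : ∀ k, κ (-k) = κ k := fun k => by simp only [hκ, epsT_neg hJ]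
  set b : Tor d L → ℝ := fun x => ∑ y, ker κ (x - y) * a y with hb
  have hb0 : ∀ x, 0 ≤ b x := fun x => Finset.sum_nonneg fun y _ => mul_nonneg (by
    have : κ = fun k => μ * (1 / (epsT n J k + μ)) := funext fun k => by
      simp only [hκ]; rw [add_comm, mul_one_div]
    rw [this, ker_mul]
    exact mul_nonneg hμ0.le (hG _)) (ha y)
  have hbh : ∀ k, hat2 b k = κ k ^ 2 * hat2 a k := (hc a κ hκn).1
  -- low modes
  have hlow : (∑ k ∈ Finset.univ.filter (fun k : Tor d L => ¬ A ≤ β * (epsT n J k + h)),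
      hat2 a k * uk n J β h k) / (L : ℝ) ^ d ≤ 108 * (A ^ 2 / β) * Df n (torJ J L) β h b := by
    rw [hD, mul_div_assoc', Finset.mul_sum]
    refine div_le_div_of_nonneg_right ?_ hV.le
    have hc0 : 0 ≤ A ^ 2 / β := by positivity
    refine le_trans (Finset.sum_le_sum fun k hk => ?_)
      (Finset.sum_le_sum_of_subset_of_nonneg (Finset.filter_subset _ _) fun k _ _ =>
        mul_nonneg (by positivity) (mul_nonneg (hat2_nonneg _ _) (m0k_nonneg hβ.le _ _)))
    have hk' := not_le.1 (Finset.mem_filter.1 hk).2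
    have h1 : epsT n J k ≤ μ := by
      rw [hμ, le_div_iff₀ hβ]; nlinarith [mul_pos hβ hh]
    have h2 : 1 / 2 ≤ κ k := by
      simp only [hκ]; rw [le_div_iff₀ (by linarith [he k])]; linarith
    have h3 : 1 ≤ 4 * κ k ^ 2 := by nlinarith
    have h4 := mul_le_mul_of_nonneg_left (hu k hk'.le) (hat2_nonneg a k)
    have h5 : 0 ≤ hat2 a k * (27 * A ^ 2 / β * m0k n J β h k) :=
      mul_nonneg (hat2_nonneg a k) (mul_nonneg (by positivity) (m0k_nonneg hβ.le _ _))
    rw [hbh]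
    calc _ ≤ hat2 a k * (27 * A ^ 2 / β * m0k n J β h k) * (4 * κ k ^ 2) :=
          h4.trans (le_mul_of_one_le_right h5 h3)
      _ = _ := by ring
  have hg1 : gform n J h b = ∑ x, ∑ y, a x *
      ker (fun k => κ k ^ 2 / (epsT n J k + h)) (x - y) * a y := by
    rw [← (hc a _ fun k => by simp only [hκn, epsT_neg hJ]).2, gform]
    congr 1
    exact Finset.sum_congr rfl fun k _ => by rw [hbh]; ring
  have hg2 : gform n J μ a = ∑ x, ∑ y, a x *
      ker (fun k => 1 / (epsT n J k + μ)) (x - y) * a y := by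
    rw [← (hc a _ fun k => by simp only [epsT_neg hJ]).2, gform]
    congr 1
    exact Finset.sum_congr rfl fun k _ => by ring
  have hsplit := hQ a
  rw [← Finset.sum_filter_add_sum_filter_not Finset.univ
    (fun k : Tor d L => A ≤ β * (epsT n J k + h)), add_div] at hsplit
  have h6 := mul_le_mul_of_nonneg_left (hIR b hb0) (show 0 ≤ 108 * (A ^ 2 / β) by positivity)
  have h7 := mul_le_mul_of_nonneg_right hsm (Qf_nonneg (torJ J L) β h a (n := n))
  rw [hg1] at h6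
  rw [hg2, mul_add, mul_div_assoc'] at hH
  rw [div_mul_eq_mul_div] at h7
  simp only [hκ] at h6
  nlinarith

end Crest.Agent.N337.FV.Bt
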