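import Crest.Agent.N337.Basic
import Crest.Agent.N337.Mom

/-!
# Row 337, FV-High I: general operator lemmas (one mode, correlation bounds)
-/

set_option autoImplicit false

namespace Crest.Agent.N337.FV.Hi

open Crest.MathPhysics.SpinModel Filter Topology Matrix

variable {X : Type} [Fintype X] [DecidableEq X] {n : ℕ} {J : X → X → ℝ} {β h : ℝ}

/-- entrywise order is compatible with products. -/
theorem pos_mul_sub {A A' B B' : Op X n} (hA : Pos A) (hB' : Pos B') (h1 : Pos (A' - A))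
    (h2 : Pos (B' - B)) : Pos (A' * B' - A * B) := by
  have : A' * B' - A * B = (A' - A) * B' + A * (B' - B) := by noncomm_ring
  rw [this]; exact (h1.mul hB').add (hA.mul h2)

omit [Fintype X] [DecidableEq X] in
theorem pos_sub_self (A : Op X n) : Pos (A - A) := by rw [sub_self]; exact pos_zero

theorem ev_csmul (hJ : Ferro J) (hβ : 0 ≤ β) {A : Op X n} (hA : Pos A) (c : ℂ) :
    ev n J β h (c • A) = c.re * ev n J β h A := by
  have hp : Pos (A * W n J h β) := hA.mul (pos_W hJ h hβ)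
  have him : (A * W n J h β).trace.im = 0 := by
    simp only [Matrix.trace, Matrix.diag_apply, Complex.im_sum]
    exact Finset.sum_eq_zero fun i _ => (hp i i).1
  unfold ev
  rw [smul_mul_assoc, Matrix.trace_smul, smul_eq_mul, Complex.mul_re, him]
  ring

open scoped ComplexOrder in
theorem eq_zero_of_ev (B : Op X n) (h0 : ev n J β h (B * Bᴴ) = 0) : B = 0 := by
  have hZ := Zp_pos (n := n) J β h
  have h1 : (B * Bᴴ * W n J h β).trace.re = 0 := by
    unfold ev at h0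
    rcases div_eq_zero_iff.1 h0 with h | h
    · exact h
    · exact absurd h hZ.ne'
  have hW : W n J h β = W n J h (β / 2) * W n J h (β / 2) := by rw [← W_add]; congr 1; ring
  set M : Op X n := W n J h (β / 2) * B with hM
  have hMM : (B * Bᴴ * W n J h β).trace = (Mᴴ * M).trace := by
    rw [hM, Matrix.conjTranspose_mul, (W_herm J h (β / 2)).eq, hW, Matrix.mul_assoc B,
      Matrix.trace_mul_comm B]
    simp only [Matrix.mul_assoc]
  have hps : (0 : ℂ) ≤ (Mᴴ * M).trace := (Matrix.posSemidef_conjTranspose_mul_self M).trace_nonneg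
  have hz : (Mᴴ * M).trace = 0 := by
    apply Complex.ext
    · rw [← hMM, h1]; rfl
    · exact (Complex.nonneg_iff.1 hps).2.symm
  have hM0 : M = 0 := Matrix.trace_conjTranspose_mul_self_eq_zero_iff.1 hz
  have : B = W n J h (-(β / 2)) * M := by
    rw [hM, ← Matrix.mul_assoc, ← W_add, neg_add_cancel, W_zero, Matrix.one_mul]
  rw [this, hM0, Matrix.mul_zero]

theorem exp_half_bound {A : ℝ} (hA : 1 ≤ A) : 1 ≤ 3 * Real.exp (-(A / 2)) * (Real.exp (A / 2) - 1) := by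
  have h1 : Real.exp (-(A / 2)) * Real.exp (A / 2) = 1 := by rw [← Real.exp_add]; simp
  have h2 : A / 2 + 1 ≤ Real.exp (A / 2) := Real.add_one_le_exp _
  have h3 : 0 < Real.exp (-(A / 2)) := Real.exp_pos _
  have h4 : Real.exp (-(A / 2)) * (3 / 2) ≤ 1 := by nlinarith
  nlinarith

theorem one_mode_real {β u v t q E A N : ℝ} (hβ : 0 < β) (hE : 0 < E) (hA : 1 ≤ A)
    (hAE : A ≤ β * E) (hN0 : 0 ≤ N) (hu0 : 0 < u) (hv0 : 0 < v) (hq : 0 ≤ q)
    (h7 : β * (E * u + t) ≤ u * Real.log (v / u)) (hcs : t ^ 2 ≤ u * q) (hN : v - u ≤ N) :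
    u ≤ 4 * q / E ^ 2 + 3 * N * Real.exp (-(A / 2)) := by
  have ht1 : 0 ≤ 4 * q / E ^ 2 := by positivity
  have ht2 : 0 ≤ 3 * N * Real.exp (-(A / 2)) := by positivity
  by_cases hc : -(E * u / 2) ≤ t
  · have h8 : u * (A / 2) ≤ u * Real.log (v / u) := by
      have : β * (E * u / 2) ≤ β * (E * u + t) := by gcongr; linarith
      nlinarith
    have h9 : A / 2 ≤ Real.log (v / u) := le_of_mul_le_mul_left h8 hu0
    have h10 : Real.exp (A / 2) ≤ v / u := (Real.le_log_iff_exp_le (by positivity)).1 h9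
    rw [le_div_iff₀ hu0] at h10
    have h11 : u * (Real.exp (A / 2) - 1) ≤ N := by linarith
    have h12 := exp_half_bound hA
    have h13 : 0 < Real.exp (-(A / 2)) := Real.exp_pos _
    have : u ≤ 3 * N * Real.exp (-(A / 2)) := by
      calc u = u * 1 := by ring
        _ ≤ u * (3 * Real.exp (-(A / 2)) * (Real.exp (A / 2) - 1)) := by gcongr
        _ = 3 * (u * (Real.exp (A / 2) - 1)) * Real.exp (-(A / 2)) := by ring
        _ ≤ _ := by gcongr
    linarith
  · have hc' : E * u / 2 ≤ -t := by linarith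
    have h8 : (E * u / 2) ^ 2 ≤ t ^ 2 := by
      rw [← neg_sq t]; exact pow_le_pow_left₀ (by positivity) hc' 2
    have h9 : u * (u * E ^ 2) ≤ u * (4 * q) := by nlinarith
    have h10 : u ≤ 4 * q / E ^ 2 := by
      rw [le_div_iff₀ (by positivity)]; exact le_of_mul_le_mul_left h9 hu0
    linarith

/-- the energy-entropy bound for one mode. -/
theorem one_mode (hβ : 0 < β) (B R : Op X n) {E A N : ℝ} (hE : 0 < E) (hA : 1 ≤ A)
    (hAE : A ≤ β * E) (hN0 : 0 ≤ N)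
    (hC : B * hamF n J h - hamF n J h * B = ((E : ℝ) : ℂ) • B + R)
    (hN : ev n J β h (B * Bᴴ) - ev n J β h (Bᴴ * B) ≤ N) :
    ev n J β h (Bᴴ * B) ≤ 4 * ev n J β h (Rᴴ * R) / E ^ 2 + 3 * N * Real.exp (-(A / 2)) := by
  obtain ⟨hu, hv, -, -, -, h6, -, -⟩ := momStmt _ (hamF n J h) B β (hamF_herm J h) hβ
  rw [hC, ← ev_eq] at h6
  rw [← ev_eq] at hu hv
  have hR := ev_star_nonneg J β h R
  rcases hu.eq_or_lt with h0 | hu0
  · rw [← h0]
    exact add_nonneg (div_nonneg (mul_nonneg (by norm_num) hR) (sq_nonneg _)) (by positivity)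
  have hv0 : 0 < ev n J β h (B * Bᴴ) := by
    refine hv.lt_of_ne fun h0 => ?_
    have hB : B = 0 := eq_zero_of_ev B h0.symm
    rw [hB, Matrix.mul_zero, ev_zero] at hu0
    exact lt_irrefl _ hu0
  have h7 := h6 hu0 hv0
  rw [Matrix.mul_add, Matrix.mul_smul, ev_add, ev_smul] at h7
  exact one_mode_real hβ hE hA hAE hN0 hu0 hv0 hR h7 (ev_cs J β h B R) hN

theorem ev_csmul_star (t : ℂ) (Y : Op X n) :
    ev n J β h ((t • Y)ᴴ * (t • Y)) = ‖t‖ ^ 2 * ev n J β h (Yᴴ * Y) := by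
  rw [Matrix.conjTranspose_smul, Matrix.smul_mul, Matrix.mul_smul, smul_smul, ← ev_smul]
  congr 2
  rw [Complex.star_def, Complex.conj_mul']; push_cast; rfl

theorem two_ev_le (P Q : Op X n) :
    2 * ev n J β h (Pᴴ * Q) ≤ ev n J β h (Pᴴ * P) + ev n J β h (Qᴴ * Q) := by
  have h0 := ev_star_nonneg J β h (P - Q)
  have h1 : ev n J β h (Qᴴ * P) = ev n J β h (Pᴴ * Q) := by
    rw [← ev_conjTranspose, Matrix.conjTranspose_mul, Matrix.conjTranspose_conjTranspose]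
  rw [Matrix.conjTranspose_sub, Matrix.sub_mul, Matrix.mul_sub, Matrix.mul_sub, ev_sub, ev_sub,
    ev_sub, h1] at h0
  linarith

/-- Cauchy-Schwarz for a weighted sum of operators. -/
theorem ev_wsum_le {ι : Type} [Fintype ι] (p : ι → ℝ) (hp : ∀ i, 0 ≤ p i) (t : ι → ℂ)
    (Y : ι → Op X n) :
    ev n J β h ((∑ i, (((p i : ℝ) : ℂ) * t i) • Y i)ᴴ * ∑ i, (((p i : ℝ) : ℂ) * t i) • Y i) ≤
      (∑ i, p i * ‖t i‖ ^ 2) * ∑ i, p i * ev n J β h ((Y i)ᴴ * Y i) := by
  rw [Matrix.conjTranspose_sum, Finset.sum_mul_sum, ev_sum]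
  simp only [ev_sum]
  have key : ∀ i j, 2 * ev n J β h (((((p i : ℝ) : ℂ) * t i) • Y i)ᴴ * ((((p j : ℝ) : ℂ) * t j) • Y j))
      ≤ p i * ‖t i‖ ^ 2 * (p j * ev n J β h ((Y j)ᴴ * Y j)) +
        p j * ‖t j‖ ^ 2 * (p i * ev n J β h ((Y i)ᴴ * Y i)) := by
    intro i j
    have h1 := two_ev_le (J := J) (β := β) (h := h) (star (t j) • Y i) (star (t i) • Y j)
    rw [ev_csmul_star, ev_csmul_star, norm_star, norm_star] at h1
    have h2 : ((((p i : ℝ) : ℂ) * t i) • Y i)ᴴ * ((((p j : ℝ) : ℂ) * t j) • Y j) =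
        ((p i * p j : ℝ) : ℂ) • ((star (t j) • Y i)ᴴ * (star (t i) • Y j)) := by
      simp only [Matrix.conjTranspose_smul, Matrix.smul_mul, Matrix.mul_smul, smul_smul, star_mul',
        Complex.star_def, Complex.conj_ofReal, Complex.conj_conj]
      congr 1; push_cast; ring
    rw [h2, ev_smul]
    have := mul_le_mul_of_nonneg_left h1 (mul_nonneg (hp i) (hp j))
    linarith
  have h3 := Finset.sum_le_sum fun i (_ : i ∈ Finset.univ) =>
    Finset.sum_le_sum fun j (_ : j ∈ Finset.univ) => key i j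
  simp only [Finset.sum_add_distrib, ← Finset.mul_sum, ← Finset.sum_mul] at h3
  linarith

/-! ### correlation bounds from `NewtonStmt` -/

/-- weights at finitely many points. -/
noncomputable def pw {k : ℕ} (p : Fin k → X) (α : Fin k → ℝ) : X → ℝ :=
  fun x => ∑ i, if p i = x then α i else 0

omit [Fintype X] in
theorem pw_nonneg {k : ℕ} (p : Fin k → X) {α : Fin k → ℝ} (hα : ∀ i, 0 ≤ α i) (x : X) :
    0 ≤ pw p α x := Finset.sum_nonneg fun i _ => by split_ifs; exacts [hα i, le_rfl]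

theorem sum_pw {k : ℕ} (p : Fin k → X) (α : Fin k → ℝ) (S : X → Op X n) :
    ∑ x, ((pw p α x : ℝ) : ℂ) • S x = ∑ i, ((α i : ℝ) : ℂ) • S (p i) := by
  simp only [pw, Complex.ofReal_sum, Finset.sum_smul]
  rw [Finset.sum_comm]
  refine Finset.sum_congr rfl fun i _ => ?_
  rw [Finset.sum_eq_single (p i)]
  · simp
  · intro x _ hx; simp [Ne.symm hx]
  · simp

omit [Fintype X] [DecidableEq X] in
theorem pos_sum_sub {k : ℕ} {S : Fin k → Op X n} (hS : ∀ i, Pos (S i)) (j : Fin k) :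
    Pos (∑ i, S i - S j) := by
  rw [← Finset.add_sum_erase _ _ (Finset.mem_univ j), add_sub_cancel_left]
  exact Pos.sum _ fun i _ => hS i

theorem ev_pw {k : ℕ} (p q : Fin k → X) (α γ : Fin k → ℝ) :
    ev n J β h (SmF n (pw p α) * SpF n (pw q γ)) =
      ∑ i, ∑ j, α i * γ j * ev n J β h (Sm n (p i) * Sp n (q j)) := by
  unfold SmF SpF
  rw [sum_pw, sum_pw, Finset.sum_mul_sum, ev_sum]
  refine Finset.sum_congr rfl fun i _ => ?_
  rw [ev_sum]
  refine Finset.sum_congr rfl fun j _ => ?_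
  rw [Matrix.smul_mul, Matrix.mul_smul, smul_smul, ← Complex.ofReal_mul, ev_smul]

theorem pos_SmF_sub {k : ℕ} (p : Fin k → X) {α : Fin k → ℝ} (hα : ∀ i, 0 ≤ α i) (j : Fin k) :
    Pos (SmF n (pw p α) - ((α j : ℝ) : ℂ) • Sm n (p j)) := by
  unfold SmF; rw [sum_pw]
  exact pos_sum_sub (S := fun i => ((α i : ℝ) : ℂ) • Sm n (p i))
    (fun i => (pos_Sm _).smul (hα i)) j

theorem pos_SpF_sub {k : ℕ} (p : Fin k → X) {α : Fin k → ℝ} (hα : ∀ i, 0 ≤ α i) (j : Fin k) :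
    Pos (SpF n (pw p α) - ((α j : ℝ) : ℂ) • Sp n (p j)) := by
  unfold SpF; rw [sum_pw]
  exact pos_sum_sub (S := fun i => ((α i : ℝ) : ℂ) • Sp n (p i))
    (fun i => (pos_Sp _).smul (hα i)) j

theorem newton2 (hN : NewtonStmt) (hn : 1 ≤ n) (hJ : Ferro J) (hβ : 0 < β) (p q : Fin 2 → X) :
    ev n J β h (Sm n (p 0) * Sm n (p 1) * (Sp n (q 0) * Sp n (q 1))) ≤
      Real.exp 1 ^ 2 * (∑ i, ∑ j, ev n J β h (Sm n (p i) * Sp n (q j))) ^ 2 := by
  have h1 : ∀ i : Fin 2, (0 : ℝ) ≤ (fun _ => (1 : ℝ)) i := fun _ => zero_le_one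
  have hm := fun j => pos_SmF_sub (n := n) p h1 j
  have hp := fun j => pos_SpF_sub (n := n) q h1 j
  simp only [Complex.ofReal_one, one_smul] at hm hp
  have hM := pos_SmF (n := n) (pw_nonneg p h1)
  have hP := pos_SpF (n := n) (pw_nonneg q h1)
  have h2 := hN X n J β h hn hJ hβ _ _ (pw_nonneg q h1) (pw_nonneg p h1) 2 (by norm_num)
  rw [ev_pw] at h2
  simp only [one_mul] at h2
  refine (ev_mono h hJ hβ.le ?_).trans (h2.trans_eq ?_)
  · rw [sq, sq]
    exact pos_mul_sub ((pos_Sm _).mul (pos_Sm _)) (hP.mul hP)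
      (pos_mul_sub (pos_Sm _) hM (hm 0) (hm 1)) (pos_mul_sub (pos_Sp _) hP (hp 0) (hp 1))
  · generalize (∑ i, ∑ j, ev n J β h (Sm n (p i) * Sp n (q j))) = s
    generalize Real.exp 1 = e
    norm_num [Nat.factorial]; ring

theorem newton3 (hN : NewtonStmt) (hn : 1 ≤ n) (hJ : Ferro J) (hβ : 0 < β) (p q : Fin 3 → X)
    {α γ : Fin 3 → ℝ} (hα : ∀ i, 0 ≤ α i) (hγ : ∀ i, 0 ≤ γ i) :
    α 0 * α 1 * α 2 * (γ 0 * γ 1 * γ 2) *
      ev n J β h (Sm n (p 0) * Sm n (p 1) * Sm n (p 2) * (Sp n (q 0) * Sp n (q 1) * Sp n (q 2))) ≤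
      4 / 3 * Real.exp 1 ^ 3 *
        (∑ i, ∑ j, α i * γ j * ev n J β h (Sm n (p i) * Sp n (q j))) ^ 3 := by
  have hm := fun j => pos_SmF_sub (n := n) p hα j
  have hp := fun j => pos_SpF_sub (n := n) q hγ j
  have hm' := fun j => (pos_Sm (n := n) (p j)).smul (hα j)
  have hp' := fun j => (pos_Sp (n := n) (q j)).smul (hγ j)
  have hM := pos_SmF (n := n) (pw_nonneg p hα)
  have hP := pos_SpF (n := n) (pw_nonneg q hγ)
  have h2 := hN X n J β h hn hJ hβ _ _ (pw_nonneg q hγ) (pw_nonneg p hα) 3 (by norm_num)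
  rw [ev_pw] at h2
  have h3 := pos_mul_sub (((hm' 0).mul (hm' 1)).mul (hm' 2)) ((hP.mul hP).mul hP)
    (pos_mul_sub ((hm' 0).mul (hm' 1)) hM (pos_mul_sub (hm' 0) hM (hm 0) (hm 1)) (hm 2))
    (pos_mul_sub ((hp' 0).mul (hp' 1)) hP (pos_mul_sub (hp' 0) hP (hp 0) (hp 1)) (hp 2))
  have h4 := ev_mono h hJ hβ.le h3
  rw [← pow_three', ← pow_three'] at h4
  simp only [Matrix.smul_mul, Matrix.mul_smul, smul_smul, ← Complex.ofReal_mul, ev_smul] at h4
  refine le_trans (le_of_eq ?_) (h4.trans (h2.trans_eq ?_))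
  · ring
  · generalize (∑ i, ∑ j, α i * γ j * ev n J β h (Sm n (p i) * Sp n (q j))) = s
    generalize Real.exp 1 = e
    norm_num [Nat.factorial]; ring

theorem c_nonneg (hJ : Ferro J) (hβ : 0 < β) (x y : X) : 0 ≤ ev n J β h (Sm n x * Sp n y) :=
  ev_nonneg h hJ hβ.le ((pos_Sm _).mul (pos_Sp _))

theorem c_le {r : ℝ} (hr0 : 0 ≤ r) (hr : ∀ x, ev n J β h (Sm n x * Sp n x) = r) (x y : X) :
    ev n J β h (Sm n x * Sp n y) ≤ r := by
  have := ev_cs (n := n) J β h (Sp n x) (Sp n y)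
  rw [Sp_conjTranspose, Sp_conjTranspose, hr, hr, ← sq] at this
  exact le_of_sq_le_sq this hr0 |> fun h => h

/-- the crude bound on the four-point correlation. -/
theorem corr_crude (hN : NewtonStmt) (hn : 1 ≤ n) (hJ : Ferro J) (hβ : 0 < β) {r : ℝ}
    (hr0 : 0 ≤ r) (hr : ∀ x, ev n J β h (Sm n x * Sp n x) = r) (x y z t : X) :
    ev n J β h (Sm n x * num n y * (num n z * Sp n t)) ≤ 16 * Real.exp 1 ^ 2 * n * r ^ 2 := by
  have hn0 : (0 : ℝ) ≤ n := Nat.cast_nonneg n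
  have h1 : Pos (Sm n x * (Sm n y * Sp n y) * ((((n : ℝ) : ℂ) • (1 : Op X n)) * Sp n t) -
      Sm n x * num n y * (num n z * Sp n t)) :=
    pos_mul_sub ((pos_Sm _).mul (pos_num _)) ((pos_one.smul hn0).mul (pos_Sp _))
      (pos_mul_sub (pos_Sm _) ((pos_Sm _).mul (pos_Sp _)) (pos_sub_self _) (pos_SmSp_sub_num y))
      (pos_mul_sub (pos_num _) (pos_Sp _) (pos_n_sub_num z) (pos_sub_self _))
  have h2 := ev_mono h hJ hβ.le h1
  have h3 : Sm n x * (Sm n y * Sp n y) * ((((n : ℝ) : ℂ) • (1 : Op X n)) * Sp n t) =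
      ((n : ℝ) : ℂ) • (Sm n x * Sm n y * (Sp n y * Sp n t)) := by
    simp only [Matrix.smul_mul, Matrix.mul_smul, Matrix.one_mul, Matrix.mul_assoc]
  rw [h3, ev_smul] at h2
  have h4 := newton2 (h := h) hN hn hJ hβ ![x, y] ![y, t]
  simp only [Fin.sum_univ_two, Matrix.cons_val_zero, Matrix.cons_val_one] at h4
  have hc := fun a b => c_le hr0 hr a b
  have hc0 := fun a b => c_nonneg (n := n) (h := h) hJ hβ a b
  have h5 : (ev n J β h (Sm n x * Sp n y) + ev n J β h (Sm n x * Sp n t) +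
      (ev n J β h (Sm n y * Sp n y) + ev n J β h (Sm n y * Sp n t))) ^ 2 ≤ (4 * r) ^ 2 := by
    apply pow_le_pow_left₀
    · linarith [hc0 x y, hc0 x t, hc0 y y, hc0 y t]
    · linarith [hc x y, hc x t, hc y y, hc y t]
  calc _ ≤ _ := h2
    _ ≤ n * (Real.exp 1 ^ 2 * (4 * r) ^ 2) := mul_le_mul_of_nonneg_left
      (h4.trans (mul_le_mul_of_nonneg_left h5 (sq_nonneg _))) hn0
    _ = _ := by ring

theorem fine_real {T r e : ℝ} (he : 0 ≤ e) (hr0 : 0 ≤ r) (M : Fin 3 → Fin 3 → ℝ)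
    (h0 : ∀ i j, 0 ≤ M i j) (h1 : ∀ i j, M i j ≤ r)
    (hT : ∀ α γ : Fin 3 → ℝ, (∀ i, 0 ≤ α i) → (∀ i, 0 ≤ γ i) →
      α 0 * α 1 * α 2 * (γ 0 * γ 1 * γ 2) * T ≤ e * (∑ i, ∑ j, α i * γ j * M i j) ^ 3) :
    T ≤ e * 12 ^ 3 * r ^ 2 * (M 0 1 + M 0 2 + M 1 1 + M 1 2) := by
  set c := M 0 1 + M 0 2 + M 1 1 + M 1 2 with hcdef
  set K : ℝ := e * 12 ^ 3 with hK
  have hc4 : c ≤ 4 * r := by linarith [h1 0 1, h1 0 2, h1 1 1, h1 1 2]
  have hcn : 0 ≤ c := by linarith [h0 0 1, h0 0 2, h0 1 1, h0 1 2]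
  have key : ∀ s : ℝ, 0 < s → T ≤ K * (r + s) ^ 2 * (c + s) := by
    intro s hs
    have hr' : 0 < r + s := by positivity
    have hc' : 0 < c + s := by positivity
    have hrr : r ≤ r + s := by linarith
    have hcc : c ≤ c + s := by linarith
    have hcr : c + s ≤ 4 * (r + s) := by linarith
    generalize r + s = r' at *
    generalize c + s = c' at *
    have h4 := hT ![r', r', c'] ![c', r', r'] (fun i => by fin_cases i <;> simp [hr'.le, hc'.le])
      (fun i => by fin_cases i <;> simp [hr'.le, hc'.le])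
    simp only [Fin.sum_univ_three, Matrix.cons_val_zero, Matrix.cons_val_one, Matrix.cons_val_two,
      Matrix.head_cons, Matrix.tail_cons] at h4
    have b1 : ∀ a b, r' * c' * M a b ≤ r' ^ 2 * c' := fun a b => by
      have := (h1 a b).trans hrr
      calc _ ≤ r' * c' * r' := by gcongr
        _ = _ := by ring
    have b2 : ∀ {e : ℝ}, e ≤ c → r' * r' * e ≤ r' ^ 2 * c' := fun {e} he => by
      calc _ ≤ r' * r' * c' := by gcongr; exact he.trans hcc
        _ = _ := by ring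
    have b3 : c' * c' * M 2 0 ≤ 4 * (r' ^ 2 * c') := by
      have := (h1 2 0).trans hrr
      have := h0 2 0
      calc _ ≤ c' * (4 * r') * r' := by gcongr
        _ = _ := by ring
    have e1 := b2 (e := M 0 1) (by linarith [h0 0 2, h0 1 1, h0 1 2])
    have e2 := b2 (e := M 0 2) (by linarith [h0 0 1, h0 1 1, h0 1 2])
    have e3 := b2 (e := M 1 1) (by linarith [h0 0 2, h0 0 1, h0 1 2])
    have e4 := b2 (e := M 1 2) (by linarith [h0 0 2, h0 1 1, h0 0 1])
    have h5 : r' * r' * c' * (c' * r' * r') * T ≤ e * (12 * (r' ^ 2 * c')) ^ 3 := by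
      refine h4.trans (mul_le_mul_of_nonneg_left (pow_le_pow_left₀ ?_ ?_ 3) he)
      · have := h0 0 0; have := h0 0 1; have := h0 0 2; have := h0 1 0; have := h0 1 1
        have := h0 1 2; have := h0 2 0; have := h0 2 1; have := h0 2 2; positivity
      · have f1 := b1 0 0; have f2 := b1 1 0; have f3 := b1 2 1; have f4 := b1 2 2
        rw [mul_comm r' c'] at f3 f4
        linarith
    have h6 : r' ^ 4 * c' ^ 2 * T ≤ r' ^ 4 * c' ^ 2 * (K * r' ^ 2 * c') := by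
      calc r' ^ 4 * c' ^ 2 * T = r' * r' * c' * (c' * r' * r') * T := by ring
        _ ≤ _ := h5
        _ = _ := by rw [hK]; ring
    exact le_of_mul_le_mul_left h6 (by positivity)
  have hlim : Tendsto (fun s : ℝ => K * (r + s) ^ 2 * (c + s)) (𝓝[>] 0) (𝓝 (K * r ^ 2 * c)) := by
    have : Continuous fun s : ℝ => K * (r + s) ^ 2 * (c + s) := by fun_prop
    simpa using (this.tendsto 0).mono_left nhdsWithin_le_nhds
  exact ge_of_tendsto hlim (eventually_nhdsWithin_of_forall key)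

/-- the fine bound on the four-point correlation. -/
theorem corr_fine (hN : NewtonStmt) (hn : 1 ≤ n) (hJ : Ferro J) (hβ : 0 < β) {r : ℝ}
    (hr0 : 0 ≤ r) (hr : ∀ x, ev n J β h (Sm n x * Sp n x) = r) (x y z t : X) (hyz : y ≠ z) :
    ev n J β h (Sm n x * num n y * (num n z * Sp n t)) ≤ 4 / 3 * Real.exp 1 ^ 3 * 12 ^ 3 * r ^ 2 *
      (ev n J β h (Sm n x * Sp n z) + ev n J β h (Sm n x * Sp n t) +
        ev n J β h (Sm n y * Sp n z) + ev n J β h (Sm n y * Sp n t)) := by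
  have h1 : Pos (Sm n x * (Sm n y * Sp n y) * ((Sm n z * Sp n z) * Sp n t) -
      Sm n x * num n y * (num n z * Sp n t)) :=
    pos_mul_sub ((pos_Sm _).mul (pos_num _)) (((pos_Sm _).mul (pos_Sp _)).mul (pos_Sp _))
      (pos_mul_sub (pos_Sm _) ((pos_Sm _).mul (pos_Sp _)) (pos_sub_self _) (pos_SmSp_sub_num y))
      (pos_mul_sub (pos_num _) (pos_Sp _) (pos_SmSp_sub_num z) (pos_sub_self _))
  have h2 := ev_mono h hJ hβ.le h1
  have h3 : Sm n x * (Sm n y * Sp n y) * ((Sm n z * Sp n z) * Sp n t) =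
      Sm n x * Sm n y * Sm n z * (Sp n y * Sp n z * Sp n t) := by
    simp only [Matrix.mul_assoc]
    rw [← Matrix.mul_assoc (Sp n y), (Sp_commute_Sm hyz).eq, Matrix.mul_assoc]
  rw [h3] at h2
  exact h2.trans (fine_real (by positivity) hr0
    (fun i j => ev n J β h (Sm n (![x, y, z] i) * Sp n (![y, z, t] j)))
    (fun _ _ => c_nonneg hJ hβ _ _) (fun _ _ => c_le hr0 hr _ _)
    fun α γ hα hγ => newton3 hN hn hJ hβ ![x, y, z] ![y, z, t] hα hγ)

end Crest.Agent.N337.FV.Hi
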