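import Crest.Agent.N337.FV.ModeF
import Crest.Agent.N337.Basic

/-!
# Row 337, FV-Mode, part 2 (helper95): `mode : ModeStmt`
-/

set_option autoImplicit false

namespace Crest.Agent.N337.FV.Md

open Finset Crest.MathPhysics.SpinModel Free Matrix
open scoped ComplexConjugate

section real
variable {X : Type} [Fintype X] [DecidableEq X] {n : ℕ} (J : X → X → ℝ) (β h : ℝ) {A B : Op X n}

/-- real matrices -/
def Rl (A : Op X n) : Prop := Aᴴ = Aᵀ
theorem Rl.mul (hA : Rl A) (hB : Rl B) : Rl (A * B) := by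
  rw [Rl, conjTranspose_mul, transpose_mul, hA, hB]
theorem rl_Sp (x : X) : Rl (Sp n x) := (Sp_conjTranspose x).trans (Sp_transpose x).symm
theorem rl_Sm (x : X) : Rl (Sm n x) := (Sm_conjTranspose x).trans (Sm_transpose x).symm
theorem rl_Sz (x : X) : Rl (Sz n x) := (Sz_conjTranspose x).trans (Sz_transpose x).symm
theorem rl_num (x : X) : Rl (num n x) := (num_conjTranspose x).trans (num_transpose x).symm

theorem ev_csmul (hA : Rl A) (c : ℂ) : ev n J β h (c • A) = c.re * ev n J β h A := by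
  have h1 : ev n J β h (Complex.I • A) = 0 := by
    have h2 := ev_conjTranspose J β h (Complex.I • A)
    rw [conjTranspose_smul, hA, Complex.star_def, Complex.conj_I, neg_smul, ev_neg,
      ← transpose_smul, ev_transpose] at h2
    linarith
  conv_lhs => rw [← Complex.re_add_im c, add_smul, mul_smul, ev_add, ev_smul, ev_smul, h1]
  ring

theorem duh_csmul (hA : Rl A) (hB : Rl B) (c c' : ℂ) :
    duh n J β h (c • A) (c' • B) = (c * c').re * duh n J β h A B := by
  have h1 : duh n J β h (Complex.I • A) B = 0 := by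
    have h2 := duh_conjTranspose J β h (Complex.I • A) B
    rw [conjTranspose_smul, hA, hB, Complex.star_def, Complex.conj_I, neg_smul, duh_eq,
      gduh_neg_left, ← duh_eq, ← transpose_smul, duh_transpose] at h2
    linarith
  have h3 : duh n J β h (c • A) (c' • B) = duh n J β h ((c * c') • A) B := by
    simp only [duh, Matrix.smul_mul, Matrix.mul_smul, smul_smul, mul_comm c']
  rw [h3]
  conv_lhs => rw [← Complex.re_add_im (c * c'), add_smul, mul_smul, duh_add_left, duh_smul_left,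
    duh_smul_left, h1]
  ring

theorem Qf_eq (a : X → ℝ) :
    Qf n J β h a = ∑ x, ∑ y, a x * a y * ev n J β h (Sm n x * Sp n y) := by
  simp only [Qf, SmF, SpF, Finset.sum_mul, Finset.mul_sum, Matrix.smul_mul, Matrix.mul_smul, ev_sum,
    ev_smul]
  rw [Finset.sum_comm]
  exact Finset.sum_congr rfl fun x _ => Finset.sum_congr rfl fun y _ => by ring

theorem duh_SpF (a : X → ℝ) (B : Op X n) :
    duh n J β h (SpF n a) B = ∑ y, a y * duh n J β h (Sp n y) B := by
  simp only [SpF, duh_sum_left, duh_smul_left]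

theorem Df_eq (a : X → ℝ) :
    Df n J β h a = ∑ x, ∑ y, a x * a y * duh n J β h (Sp n x) (Sm n y) := by
  rw [Df, duh_SpF]
  simp only [SmF, duh_sum_right, duh_smul_right, Finset.mul_sum, mul_assoc]

theorem comm_Sp (φ : X → ℂ) (y : X) : Sp n y * (∑ w, φ w • Sm n w) - (∑ w, φ w • Sm n w) * Sp n y =
    (φ y * 2) • Sz n y := by
  simp only [Finset.sum_mul, Finset.mul_sum, Matrix.smul_mul, Matrix.mul_smul,
    ← Finset.sum_sub_distrib, ← smul_sub]
  rw [Finset.sum_eq_single y, Sp_Sm_comm, smul_smul]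
  · intro w _ hw
    rw [(Sp_commute_Sm hw.symm).eq, sub_self, smul_zero]
  · simp

theorem comm_num (φ : X → ℂ) (x : X) :
    num n x * (∑ w, φ w • Sm n w) - (∑ w, φ w • Sm n w) * num n x = φ x • Sm n x := by
  simp only [Finset.sum_mul, Finset.mul_sum, Matrix.smul_mul, Matrix.mul_smul,
    ← Finset.sum_sub_distrib, ← smul_sub]
  rw [Finset.sum_eq_single x, num_Sm_comm]
  · intro w _ hw
    rw [(Sm_commute_num hw).eq, sub_self, smul_zero]
  · simp

theorem comm_numSp (φ : X → ℂ) (x y : X) :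
    num n x * Sp n y * (∑ w, φ w • Sm n w) - (∑ w, φ w • Sm n w) * (num n x * Sp n y) =
      (φ y * 2) • (num n x * Sz n y) + φ x • (Sm n x * Sp n y) := by
  rw [← Matrix.mul_smul, ← Matrix.smul_mul, ← comm_Sp, ← comm_num]
  noncomm_ring

theorem ev_Sz (x : X) : ev n J β h (Sz n x) = spinVal n - ev n J β h (num n x) := by
  rw [Sz_eq_num, ev_sub, ev_smul, ev_one, mul_one]

variable {J β}
theorem abs_ev_numSz (hJ : Ferro J) (hβ : 0 ≤ β) (x y : X) :
    |ev n J β h (num n x * Sz n y)| ≤ spinVal n * ev n J β h (num n x) := by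
  have h1 := ev_nonneg h hJ hβ ((pos_num (n := n) x).mul (pos_num y))
  have h2 := ev_nonneg h hJ hβ ((pos_num (n := n) x).mul (pos_n_sub_num y))
  rw [Matrix.mul_sub, Matrix.mul_smul, Matrix.mul_one, ev_sub, ev_smul] at h2
  rw [Sz_eq_num, Matrix.mul_sub, Matrix.mul_smul, Matrix.mul_one, ev_sub, ev_smul, abs_le, spinVal]
  constructor <;> linarith

/-- the commutator of a mode with the Hamiltonian -/
theorem mode_eom (hJ : Ferro J) (φ : X → ℂ) (e : ℝ)
    (hφ : ∀ x, ((spinVal n : ℝ) : ℂ) * ∑ y, ((J x y : ℝ) : ℂ) * (φ x - φ y) = (e : ℂ) * φ x) :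
    (∑ x, φ x • Sp n x) * hamF n J h - hamF n J h * ∑ x, φ x • Sp n x =
      ((e + h : ℝ) : ℂ) • ∑ x, φ x • Sp n x +
        ∑ x, ∑ y, (((J x y : ℝ) : ℂ) * (φ x - φ y)) • (num n x * Sp n y) := by
  have h1 : ∑ x, ∑ y, (φ x * ((J x y : ℝ) * (spinVal n : ℝ))) • Sp n y =
      ∑ x, ∑ y, (φ y * ((J x y : ℝ) * (spinVal n : ℝ))) • Sp n x := by
    rw [Finset.sum_comm]
    simp only [hJ.symm]
  have h2 : ∑ x, ∑ y, (φ x * (J x y : ℝ)) • (num n y * Sp n x) =
      ∑ x, ∑ y, (φ y * (J x y : ℝ)) • (num n x * Sp n y) := by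
    rw [Finset.sum_comm]
    simp only [hJ.symm]
  have h3 : ∀ x, ((e : ℂ) * φ x) • Sp n x =
      ∑ y, (φ x * ((J x y : ℝ) * (spinVal n : ℝ))) • Sp n x -
      ∑ y, (φ y * ((J x y : ℝ) * (spinVal n : ℝ))) • Sp n x := fun x => by
    rw [← hφ, Finset.mul_sum, Finset.sum_smul, ← Finset.sum_sub_distrib]
    refine Finset.sum_congr rfl fun y _ => ?_
    rw [← sub_smul]
    congr 1; ring
  have h4 : ∀ x y, (((J x y : ℝ) : ℂ) * (φ x - φ y)) • (num n x * Sp n y) =
      (φ x * (J x y : ℝ)) • (num n x * Sp n y) - (φ y * (J x y : ℝ)) • (num n x * Sp n y) :=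
    fun x y => by
      rw [← sub_smul]
      congr 1; ring
  rw [Finset.sum_mul, Finset.mul_sum, ← Finset.sum_sub_distrib]
  simp only [Matrix.smul_mul, Matrix.mul_smul, ← smul_sub, eom hJ, h4]
  simp only [smul_add, smul_sub, Finset.smul_sum, smul_smul, Finset.sum_add_distrib,
    Finset.sum_sub_distrib, Complex.ofReal_add, add_mul, add_smul, h3, h1, h2,
    mul_comm (φ _) (h : ℂ)]
  abel

end real

variable {d L : ℕ} [NeZero L] {n : ℕ} (J : (Fin d → ℤ) → ℝ) (β h : ℝ)

theorem ev_shift (w : Tor d L) (A : Op (Tor d L) n) :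
    ev n (torJ J L) β h (reix n (Equiv.addRight w) A) = ev n (torJ J L) β h A :=
  ev_reix (e := Equiv.addRight w) (fun x y => torJ_add x y w) β h A
theorem duh_shift (w : Tor d L) (A B : Op (Tor d L) n) :
    duh n (torJ J L) β h (reix n (Equiv.addRight w) A) (reix n (Equiv.addRight w) B) =
      duh n (torJ J L) β h A B :=
  duh_reix (e := Equiv.addRight w) (fun x y => torJ_add x y w) β h A B

theorem ev_num (x : Tor d L) : ev n (torJ J L) β h (num n x) = rho n J L β h := by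
  simpa only [reix_num, Equiv.coe_addRight, zero_add, rho] using ev_shift J β h x (num n 0)

/-- the equal-time kernel -/
noncomputable def cc (n : ℕ) (w : Tor d L) : ℝ := ev n (torJ J L) β h (Sm n w * Sp n 0)
/-- the Duhamel kernel -/
noncomputable def dd (n : ℕ) (w : Tor d L) : ℝ := duh n (torJ J L) β h (Sp n w) (Sm n 0)

theorem ev_SmSp (x y : Tor d L) : ev n (torJ J L) β h (Sm n x * Sp n y) = cc J β h n (x - y) := by
  rw [cc, ← ev_shift J β h y (Sm n (x - y) * Sp n 0), map_mul, reix_Sm, reix_Sp]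
  simp only [Equiv.coe_addRight, zero_add, sub_add_cancel]
theorem duh_SpSm (x y : Tor d L) :
    duh n (torJ J L) β h (Sp n x) (Sm n y) = dd J β h n (x - y) := by
  simpa only [reix_Sm, reix_Sp, Equiv.coe_addRight, zero_add, sub_add_cancel, dd] using
    duh_shift J β h y (Sp n (x - y)) (Sm n 0)
theorem cc_neg (w : Tor d L) : cc J β h n (-w) = cc J β h n w := by
  rw [← zero_sub, ← ev_SmSp, ev_SmSp_symm]; rfl
theorem dd_neg (w : Tor d L) : dd J β h n (-w) = dd J β h n w := by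
  rw [← zero_sub, ← duh_SpSm, duh_Sp_Sm_symm]; rfl

theorem abs_ev_SmSp (x y : Tor d L) : |ev n (torJ J L) β h (Sm n x * Sp n y)| ≤ rS n J L β h := by
  have h1 := ev_cs (torJ J L) β h (Sp n x) (Sp n y)
  have h2 := ev_star_nonneg (torJ J L) β h (Sp n (0 : Tor d L))
  simp only [Sp_conjTranspose] at h1 h2
  rw [ev_SmSp J β h x x, ev_SmSp J β h y y, sub_self, sub_self, ← sq] at h1
  exact abs_le_of_sq_le_sq h1 h2

theorem Bk_conj (k : Tor d L) : (Bk n k)ᴴ =
    (((Real.sqrt ((L : ℝ) ^ d))⁻¹ : ℝ) : ℂ) • ∑ x : Tor d L, conj (chi k x) • Sm n x := by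
  simp only [Bk, conjTranspose_smul, conjTranspose_sum, Sp_conjTranspose, Complex.star_def,
    Complex.conj_ofReal]

theorem ss_mul (t : ℝ) :
    (Real.sqrt ((L : ℝ) ^ d))⁻¹ * ((Real.sqrt ((L : ℝ) ^ d))⁻¹ * ((L : ℝ) ^ d * t)) = t := by
  have h := vol_pos (d := d) (L := L)
  rw [← mul_assoc, ← mul_inv, Real.mul_self_sqrt h.le, inv_mul_cancel_left₀ h.ne']

theorem uk_eq (k : Tor d L) : uk n J β h k = ct (cc J β h n) k := by
  rw [← ss_mul (d := d) (L := L) (ct _ k), ← sum_mode, uk, Bk_conj, Bk, Matrix.smul_mul,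
    Matrix.mul_smul, ev_smul, ev_smul, Finset.sum_mul_sum]
  congr 2
  simp only [ev_sum, Matrix.smul_mul, Matrix.mul_smul, smul_smul]
  refine Finset.sum_congr rfl fun x _ => Finset.sum_congr rfl fun y _ => ?_
  rw [ev_csmul _ _ _ ((rl_Sm x).mul (rl_Sp y)), ev_SmSp]
  simp only [Complex.mul_re, Complex.conj_re, Complex.conj_im]
  ring

theorem m0k_eq (k : Tor d L) : m0k n J β h k = ct (dd J β h n) k := by
  rw [← ss_mul (d := d) (L := L) (ct _ k), ← sum_mode, m0k, Bk_conj, Bk, duh_smul_left,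
    duh_smul_right]
  congr 2
  rw [duh_sum_left]
  simp only [duh_sum_right]
  refine Finset.sum_congr rfl fun x _ => Finset.sum_congr rfl fun y _ => ?_
  rw [duh_csmul _ _ _ (rl_Sp x) (rl_Sm y), duh_SpSm]

theorem uk_nonneg (k : Tor d L) : 0 ≤ uk n J β h k := ev_star_nonneg _ _ _ _

theorem ker_uk (x y : Tor d L) :
    ker (uk n J β h) (x - y) = ev n (torJ J L) β h (Sm n x * Sp n y) := by
  rw [funext (uk_eq J β h), ker_ct (cc_neg J β h), ev_SmSp]
theorem ker_m0k (x y : Tor d L) :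
    ker (m0k n J β h) (x - y) = duh n (torJ J L) β h (Sp n x) (Sm n y) := by
  rw [funext (m0k_eq J β h), ker_ct (dd_neg J β h), duh_SpSm]

theorem vk_sub_uk (k : Tor d L) : vk n J β h k - uk n J β h k = n - 2 * rho n J L β h := by
  rw [← ss_mul (d := d) (L := L) (n - _), vk, uk, ← ev_sub, Bk_conj, Bk, Matrix.smul_mul,
    Matrix.mul_smul, Matrix.smul_mul, Matrix.mul_smul, ← smul_sub, ← smul_sub, ev_smul, ev_smul,
    Finset.sum_mul, Finset.mul_sum _ _ (∑ _, _), ← Finset.sum_sub_distrib, ev_sum]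
  congr 2
  have h1 : ∀ x : Tor d L, ev n (torJ J L) β h
      (chi k x • Sp n x * ∑ w : Tor d L, conj (chi k w) • Sm n w -
        (∑ w : Tor d L, conj (chi k w) • Sm n w) * chi k x • Sp n x) =
      n - 2 * rho n J L β h := fun x => by
    rw [Matrix.smul_mul, Matrix.mul_smul, ← smul_sub, comm_Sp, smul_smul, ← mul_assoc,
      chi_mul_conj, ev_csmul _ _ _ (rl_Sz x), ev_Sz, ev_num, spinVal]
    simp only [one_mul, Complex.re_ofNat]
    ring
  simp only [h1, Finset.sum_const, card_univ, card_Tor, nsmul_eq_mul, Nat.cast_pow]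

theorem ev_Jk_comm (k : Tor d L) :
    (L : ℝ) ^ d * ev n (torJ J L) β h (Jk n J k * (Bk n k)ᴴ - (Bk n k)ᴴ * Jk n J k) =
      ∑ x : Tor d L, ∑ y, torJ J L x y * (1 - (chi k x * conj (chi k y)).re) *
        (ev n (torJ J L) β h (Sm n x * Sp n y) - 2 * ev n (torJ J L) β h (num n x * Sz n y)) := by
  rw [Bk_conj, Jk, Matrix.smul_mul, Matrix.mul_smul, Matrix.smul_mul, Matrix.mul_smul, ← smul_sub,
    ← smul_sub, ev_smul, ev_smul, mul_left_comm, mul_left_comm ((L : ℝ) ^ d), ss_mul,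
    Finset.sum_mul, Finset.mul_sum _ _ (∑ _, _), ← Finset.sum_sub_distrib, ev_sum]
  refine Finset.sum_congr rfl fun x _ => ?_
  rw [Finset.sum_mul, Finset.mul_sum _ _ (∑ _, _), ← Finset.sum_sub_distrib, ev_sum]
  refine Finset.sum_congr rfl fun y _ => ?_
  have h1 := congrArg Complex.re (chi_mul_conj k x)
  have h2 := congrArg Complex.re (chi_mul_conj k y)
  rw [Matrix.smul_mul, Matrix.mul_smul, ← smul_sub, comm_numSp, smul_add, smul_smul, smul_smul,
    ev_add, ev_csmul _ _ _ ((rl_num x).mul (rl_Sz y)), ev_csmul _ _ _ ((rl_Sm x).mul (rl_Sp y))]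
  simp only [Complex.mul_re, Complex.mul_im, Complex.conj_re, Complex.conj_im, Complex.sub_re,
    Complex.sub_im, Complex.ofReal_re, Complex.ofReal_im, Complex.re_ofNat, Complex.im_ofNat,
    Complex.one_re] at h1 h2 ⊢
  linear_combination torJ J L x y * ev n (torJ J L) β h (Sm n x * Sp n y) * h1 -
    2 * torJ J L x y * ev n (torJ J L) β h (num n x * Sz n y) * h2

variable {J β}
theorem rho_le (hF : Ferro (torJ J L)) (hβ : 0 ≤ β) : rho n J L β h ≤ rS n J L β h :=
  ev_mono h hF hβ (pos_SmSp_sub_num 0)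

theorem abs_Jk_comm (hJ : Coup J) (hn : 1 ≤ n) (hF : Ferro (torJ J L)) (hβ : 0 ≤ β) (k : Tor d L) :
    |ev n (torJ J L) β h (Jk n J k * (Bk n k)ᴴ - (Bk n k)ᴴ * Jk n J k)| ≤
      4 * rS n J L β h * epsT n J k := by
  have hV := vol_pos (d := d) (L := L)
  have h1 := rho_le (n := n) h hF hβ
  have h2 : 0 ≤ rho n J L β h := ev_nonneg h hF hβ (pos_num 0)
  have h3 : (1 : ℝ) ≤ n := by exact_mod_cast hn
  refine le_of_mul_le_mul_left ?_ hV
  rw [← abs_of_pos hV, ← abs_mul, ev_Jk_comm, abs_of_pos hV]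
  refine (Finset.abs_sum_le_sum_abs _ _).trans ((Finset.sum_le_card_nsmul _ _
    (4 * rS n J L β h * epsT n J k) fun x _ => ?_).trans (by simp [card_Tor]))
  rw [← sum_J_cos hJ n k x, ← mul_assoc, Finset.mul_sum]
  refine (Finset.abs_sum_le_sum_abs _ _).trans (Finset.sum_le_sum fun y _ => ?_)
  have h4 : 0 ≤ torJ J L x y * (1 - (chi k x * conj (chi k y)).re) :=
    mul_nonneg (hF.nonneg x y) (sub_nonneg.2 (by
      rw [← chi_sub]; exact (le_abs_self _).trans (abs_re_chi_le _ _)))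
  rw [abs_mul, abs_of_nonneg h4, mul_comm]
  refine mul_le_mul_of_nonneg_right ?_ h4
  have h5 := abs_le.1 (abs_ev_SmSp (n := n) J β h x y)
  have h6 := abs_le.1 (abs_ev_numSz (n := n) h hF hβ x y)
  rw [ev_num, spinVal] at h6
  rw [abs_le, spinVal]
  constructor <;> nlinarith

theorem Ck_eq (hJ : Coup J) (hF : Ferro (torJ J L)) (k : Tor d L) :
    Ck n J h k = ((epsT n J k + h : ℝ) : ℂ) • Bk n k + Jk n J k := by
  rw [Ck, Bk, Jk, Matrix.smul_mul, Matrix.mul_smul, ← smul_sub,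
    mode_eom h hF _ _ (lap_chi hJ n k), smul_add, smul_comm]

end Crest.Agent.N337.FV.Md

namespace Crest.Agent.N337.FV
open Md Free Matrix

theorem mode : ModeStmt := by
  intro d n J _ hn hJ
  obtain ⟨L0, hL0⟩ := exists_ferro hJ
  refine ⟨L0, fun L _ hL β h hβ => ⟨ev_num J β h, fun x y w => ?_, fun x y z t w => ?_,
    ⟨ev_nonneg h (hL0 L hL) hβ.le (pos_num 0), rho_le h (hL0 L hL) hβ.le, ?_⟩,
    fun k => ⟨Ck_eq h hJ (hL0 L hL) k, vk_sub_uk J β h k, ?_⟩, fun a => ?_⟩⟩
  · rw [ev_SmSp, ev_SmSp, add_sub_add_right_eq_sub]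
  · rw [← ev_shift J β h w (Sm n x * num n y * (num n z * Sp n t)), map_mul, map_mul, map_mul,
      reix_Sm, reix_Sp, reix_num, reix_num]
    rfl
  · exact (ev_mono h (hL0 L hL) hβ.le (pos_n_num_sub_SmSp 0)).trans_eq (ev_smul _ _ _ _ _)
  · convert abs_Jk_comm h hJ hn (hL0 L hL) hβ.le k using 2
    rw [m2k, Ck_eq h hJ (hL0 L hL), vk, uk, ← ev_sub, ← ev_smul, ← ev_sub]
    congr 1
    simp only [Matrix.add_mul, Matrix.mul_add, Matrix.smul_mul, Matrix.mul_smul, smul_sub]
    abel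
  have hQ : Qf n (torJ J L) β h a = (∑ k, hat2 a k * uk n J β h k) / (L : ℝ) ^ d := by
    simp only [Qf_eq, ← ker_uk, form_ker_zero]
  have hD : Df n (torJ J L) β h a = (∑ k, hat2 a k * m0k n J β h k) / (L : ℝ) ^ d := by
    simp only [Df_eq, ← ker_m0k, form_ker_zero]
  refine ⟨sum_hat2 a, hQ, hD, fun w => ?_, fun f hf => ⟨hat2_conv hf a, ?_, fun h0 M w hM => ?_⟩⟩
  · rw [hD]
    refine le_trans (le_of_eq ?_) (form_ker_le (f := m0k n J β h)
      (fun k => duh_star_nonneg _ h hβ.le _) (fun _ => le_rfl) a (-w))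
    simp only [duh_SpF, ← ker_m0k, Finset.mul_sum]
    rw [Finset.sum_comm]
    refine Finset.sum_congr rfl fun x _ => Finset.sum_congr rfl fun y _ => ?_
    rw [← sub_sub, sub_eq_add_neg _ w]; ring
  · simp only [mul_comm (f _), ← form_ker_zero]
    exact Finset.sum_congr rfl fun x _ => Finset.sum_congr rfl fun y _ => by ring
  · refine le_trans (le_of_eq ?_) ((form_ker_le (f := fun k => f k * uk n J β h k)
      (g := fun k => M * uk n J β h k) (fun k => mul_nonneg (h0 k) (uk_nonneg J β h k))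
      (fun k => mul_le_mul_of_nonneg_right (hM k) (uk_nonneg J β h k)) a w).trans_eq ?_)
    · refine Finset.sum_congr rfl fun x _ => Finset.sum_congr rfl fun y _ => ?_
      rw [← ker_conv hf, Finset.mul_sum]
      refine Finset.sum_congr rfl fun s _ => ?_
      rw [← ker_uk, mul_assoc (a x * a y), show x + s + w - y = x - y + w + s by abel]
    · rw [hQ, mul_div_assoc', Finset.mul_sum]
      simp only [mul_left_comm M]

end Crest.Agent.N337.FV
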