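import Crest.Agent.N337.FV.Defs
import Crest.Agent.N337.Free.Walk

/-!
# Row 337, FV-Mode, part 1 (helper95): Fourier identities on the torus
-/

set_option autoImplicit false

namespace Crest.Agent.N337.FV.Md

open Finset Crest.MathPhysics.SpinModel Free
open scoped ComplexConjugate

variable {d L : ℕ} [NeZero L]

/-- cosine transform -/
noncomputable def ct (c : Tor d L → ℝ) (k : Tor d L) : ℝ := ∑ w, c w * (chi k w).re

theorem ct_eq (c : Tor d L → ℝ) (k : Tor d L) : ct c k = (L : ℝ) ^ d * ker c k := by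
  rw [ker, mul_div_cancel₀ _ vol_pos.ne', ct]
  simp only [chi_comm k]

theorem ct_neg (c : Tor d L → ℝ) (k : Tor d L) : ct c (-k) = ct c k := by
  rw [ct_eq, ct_eq, ker_neg]

/-- Fourier inversion for even functions -/
theorem ker_ct {c : Tor d L → ℝ} (hc : ∀ x, c (-x) = c x) (x : Tor d L) : ker (ct c) x = c x := by
  have h := sum_ker_mul_re_chi c x
  rw [hc, add_self_div_two] at h
  rw [ker, ← h, div_eq_iff vol_pos.ne', Finset.sum_mul]
  refine Finset.sum_congr rfl fun k _ => ?_
  rw [ct_eq, chi_comm k]; ring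

theorem sum_ker_chi {f : Tor d L → ℝ} (hf : ∀ k, f (-k) = f k) (k : Tor d L) :
    ∑ s, ((ker f s : ℝ) : ℂ) * chi k s = (f k : ℂ) := by
  apply Complex.ext
  · simp only [Complex.re_sum, Complex.re_ofReal_mul, Complex.ofReal_re]
    rw [sum_ker_mul_re_chi, hf, add_self_div_two]
  · simp only [Complex.im_sum, Complex.im_ofReal_mul, Complex.ofReal_im]
    have h := Equiv.sum_comp (Equiv.neg (Tor d L)) fun s => ker f s * (chi k s).im
    simp only [Equiv.neg_apply, ker_neg, chi_neg, Complex.conj_im, mul_neg,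
      Finset.sum_neg_distrib] at h
    linarith

theorem ker_conv {f : Tor d L → ℝ} (hf : ∀ k, f (-k) = f k) (g : Tor d L → ℝ) (z : Tor d L) :
    ∑ s, ker f s * ker g (z + s) = ker (fun k => f k * g k) z := by
  have h : ∀ k, ∑ s, ker f s * (chi k (z + s)).re = f k * (chi k z).re := fun k => by
    have h1 := congrArg (fun t => (chi k z * t).re) (sum_ker_chi hf k)
    simp only [Finset.mul_sum, Complex.re_sum, Complex.re_mul_ofReal] at h1
    rw [mul_comm (f k), ← h1]
    refine Finset.sum_congr rfl fun s _ => ?_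
    rw [chi_add, mul_left_comm, Complex.re_ofReal_mul]
  rw [ker]
  conv_lhs => enter [2, s]; rw [ker.eq_1 g, mul_div_assoc', Finset.mul_sum]
  rw [← Finset.sum_div, Finset.sum_comm]
  congr 1
  refine Finset.sum_congr rfl fun k _ => ?_
  rw [mul_comm (f k), mul_assoc, ← h, Finset.mul_sum]
  exact Finset.sum_congr rfl fun s _ => by ring

theorem hat2_nonneg (a : Tor d L → ℝ) (k : Tor d L) : 0 ≤ hat2 a k := sq_nonneg _

theorem hat2_eq (a : Tor d L → ℝ) (k : Tor d L) :
    ((hat2 a k : ℝ) : ℂ) = ∑ x, ∑ y, ((a x * a y : ℝ) : ℂ) * chi k (x - y) := by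
  rw [hat2, Complex.ofReal_pow, ← Complex.mul_conj', map_sum, Finset.sum_mul_sum]
  refine Finset.sum_congr rfl fun x _ => Finset.sum_congr rfl fun y _ => ?_
  rw [chi_sub, map_mul, Complex.conj_ofReal, Complex.ofReal_mul]; ring

/-- shifted quadratic forms of convolution kernels -/
theorem form_ker (f a : Tor d L → ℝ) (w : Tor d L) :
    ∑ x, ∑ y, a x * a y * ker f (x - y + w) =
      (∑ k, f k * hat2 a k * (chi k w).re) / (L : ℝ) ^ d := by
  have h : ∀ k, hat2 a k * (chi k w).re = ∑ x, ∑ y, a x * a y * (chi k (x - y + w)).re := fun k => by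
    rw [← Complex.re_ofReal_mul, hat2_eq]
    simp only [Finset.sum_mul, Complex.re_sum, mul_assoc, ← chi_add, Complex.re_ofReal_mul]
  simp only [mul_assoc (f _), h, ker, mul_div_assoc', Finset.mul_sum, ← Finset.sum_div]
  congr 1
  conv_rhs => rw [Finset.sum_comm]
  refine Finset.sum_congr rfl fun x _ => ?_
  conv_rhs => rw [Finset.sum_comm]
  exact Finset.sum_congr rfl fun y _ => Finset.sum_congr rfl fun k _ => by ring

theorem form_ker_zero (f a : Tor d L → ℝ) :
    ∑ x, ∑ y, a x * a y * ker f (x - y) = (∑ k, hat2 a k * f k) / (L : ℝ) ^ d := by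
  simpa only [add_zero, chi_zero, Complex.one_re, mul_one, mul_comm (f _)] using form_ker f a 0

theorem form_ker_le {f g : Tor d L → ℝ} (hf : ∀ k, 0 ≤ f k) (hfg : ∀ k, f k ≤ g k)
    (a : Tor d L → ℝ) (w : Tor d L) :
    ∑ x, ∑ y, a x * a y * ker f (x - y + w) ≤ (∑ k, hat2 a k * g k) / (L : ℝ) ^ d := by
  rw [form_ker]
  refine div_le_div_of_nonneg_right (Finset.sum_le_sum fun k _ => ?_) vol_pos.le
  have h1 := (le_abs_self _).trans (abs_re_chi_le k w)
  have h2 := hat2_nonneg a k
  calc _ ≤ f k * hat2 a k * 1 := mul_le_mul_of_nonneg_left h1 (mul_nonneg (hf k) h2)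
    _ ≤ _ := by rw [mul_one, mul_comm]; exact mul_le_mul_of_nonneg_left (hfg k) h2

theorem sum_hat2 (a : Tor d L → ℝ) : (∑ k, hat2 a k) / (L : ℝ) ^ d = ∑ x, a x ^ 2 := by
  have h := form_ker_zero (fun _ => 1) a
  simp only [mul_one, ker_one, sub_eq_zero, mul_ite, mul_zero, Finset.sum_ite_eq, mem_univ,
    if_true] at h
  rw [← h]
  simp only [sq]

theorem hat2_conv {f : Tor d L → ℝ} (hf : ∀ k, f (-k) = f k) (a : Tor d L → ℝ) (k : Tor d L) :
    hat2 (fun x => ∑ y, ker f (x - y) * a y) k = f k ^ 2 * hat2 a k := by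
  have h : ∑ x, ((∑ y, ker f (x - y) * a y : ℝ) : ℂ) * chi k x =
      (f k : ℂ) * ∑ y, ((a y : ℝ) : ℂ) * chi k y := by
    simp only [Complex.ofReal_sum, Finset.sum_mul, Finset.mul_sum]
    rw [Finset.sum_comm]
    refine Finset.sum_congr rfl fun y _ => ?_
    rw [← sum_ker_chi hf k, Finset.sum_mul, ← Equiv.sum_comp (Equiv.addRight y)]
    refine Finset.sum_congr rfl fun s _ => ?_
    simp only [Equiv.coe_addRight, add_sub_cancel_right, chi_add, Complex.ofReal_mul]
    ring
  rw [hat2, hat2, h, norm_mul, mul_pow, Complex.norm_real, Real.norm_eq_abs, sq_abs]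

/-- the diagonal mode of a translation invariant kernel -/
theorem sum_mode (c : Tor d L → ℝ) (k : Tor d L) :
    ∑ x, ∑ y, (chi k x * conj (chi k y)).re * c (x - y) = (L : ℝ) ^ d * ct c k := by
  rw [Finset.sum_comm]
  have h : ∀ y, ∑ x, (chi k x * conj (chi k y)).re * c (x - y) = ct c k := fun y => by
    rw [ct, ← Equiv.sum_comp (Equiv.addRight y)]
    refine Finset.sum_congr rfl fun s _ => ?_
    rw [← chi_sub, Equiv.coe_addRight, add_sub_cancel_right, mul_comm]
  simp only [h, Finset.sum_const, card_univ, card_Tor, nsmul_eq_mul, Nat.cast_pow]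

theorem chi_mul_conj (k x : Tor d L) : chi k x * conj (chi k x) = 1 := by
  rw [← chi_sub, sub_self, chi_zero]

theorem sum_J_cos {J : (Fin d → ℤ) → ℝ} (hJ : Coup J) (n : ℕ) (k x : Tor d L) :
    spinVal n * ∑ y, torJ J L x y * (1 - (chi k x * conj (chi k y)).re) = epsT n J k := by
  have h := congrArg (fun t => (conj (chi k x) * t).re) (lap_chi hJ n k x)
  have h1 : conj (chi k x) * chi k x = 1 := by rw [mul_comm, chi_mul_conj]
  simp only [mul_left_comm (conj (chi k x)), h1, mul_one, Complex.ofReal_re,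
    Complex.re_ofReal_mul] at h
  rw [← h, Finset.mul_sum _ _ (conj (chi k x)), Complex.re_sum]
  congr 1
  refine Finset.sum_congr rfl fun y _ => ?_
  rw [mul_left_comm, Complex.re_ofReal_mul, mul_sub (conj (chi k x)), h1]
  simp only [Complex.sub_re, Complex.one_re, Complex.mul_re, Complex.conj_re, Complex.conj_im]
  ring

end Crest.Agent.N337.FV.Md
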